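import Vale.Agent.P252.Defs

/-!
# Partial derivatives on an open set, Hessians, and their inverses
-/

namespace Vale.Agent.P252

open scoped ContDiff Topology Matrix
open Finset Set

noncomputable section

variable {n : ℕ} {Ω : Set (Fin n → ℝ)} {f g : (Fin n → ℝ) → ℝ} {x : Fin n → ℝ}

/-- Smooth on the open set `Ω`. -/
def Sm (Ω : Set (Fin n → ℝ)) (f : (Fin n → ℝ) → ℝ) : Prop := ContDiffOn ℝ ∞ f Ω

lemma Sm.contDiffAt (hΩ : IsOpen Ω) (hf : Sm Ω f) (hx : x ∈ Ω) : ContDiffAt ℝ ∞ f x :=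
  ContDiffOn.contDiffAt hf (hΩ.mem_nhds hx)

lemma Sm.differentiableAt (hΩ : IsOpen Ω) (hf : Sm Ω f) (hx : x ∈ Ω) : DifferentiableAt ℝ f x :=
  (hf.contDiffAt hΩ hx).differentiableAt (by simp)

lemma Sm.pd (hΩ : IsOpen Ω) (hf : Sm Ω f) (i : Fin n) : Sm Ω (pd i f) :=
  (hf.fderiv_of_isOpen hΩ (m := ∞) le_rfl).clm_apply contDiffOn_const

lemma Sm.hess (hΩ : IsOpen Ω) (hf : Sm Ω f) (i j : Fin n) : Sm Ω (fun y => hess f y i j) :=
  (hf.pd hΩ j).pd hΩ i

lemma sm_const (c : ℝ) : Sm Ω (fun _ => c) := contDiffOn_const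

lemma Sm.add (hf : Sm Ω f) (hg : Sm Ω g) : Sm Ω fun y => f y + g y := ContDiffOn.add hf hg

lemma Sm.sub (hf : Sm Ω f) (hg : Sm Ω g) : Sm Ω fun y => f y - g y := ContDiffOn.sub hf hg

lemma Sm.mul (hf : Sm Ω f) (hg : Sm Ω g) : Sm Ω fun y => f y * g y := ContDiffOn.mul hf hg

lemma Sm.pow (hf : Sm Ω f) (k : ℕ) : Sm Ω fun y => f y ^ k := ContDiffOn.pow hf k

lemma sm_sum {ι : Type*} (s : Finset ι) {f : ι → (Fin n → ℝ) → ℝ} (hf : ∀ i ∈ s, Sm Ω (f i)) :
    Sm Ω fun y => ∑ i ∈ s, f i y := ContDiffOn.sum hf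

lemma pd_congr (h : f =ᶠ[𝓝 x] g) (i : Fin n) : pd i f x = pd i g x := by
  simp only [pd, h.fderiv_eq]

lemma pd_congr_on (hΩ : IsOpen Ω) (hx : x ∈ Ω) (h : ∀ y ∈ Ω, f y = g y) (i : Fin n) :
    pd i f x = pd i g x :=
  pd_congr (Filter.eventually_of_mem (hΩ.mem_nhds hx) h) i

lemma pd_const (c : ℝ) (i : Fin n) : pd i (fun _ => c) x = 0 := by simp [pd]

lemma pd_add (hf : DifferentiableAt ℝ f x) (hg : DifferentiableAt ℝ g x) (i : Fin n) :
    pd i (fun y => f y + g y) x = pd i f x + pd i g x := by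
  simp [pd, fderiv_fun_add hf hg]

lemma pd_sub (hf : DifferentiableAt ℝ f x) (hg : DifferentiableAt ℝ g x) (i : Fin n) :
    pd i (fun y => f y - g y) x = pd i f x - pd i g x := by
  simp [pd, fderiv_fun_sub hf hg]

lemma pd_mul (hf : DifferentiableAt ℝ f x) (hg : DifferentiableAt ℝ g x) (i : Fin n) :
    pd i (fun y => f y * g y) x = pd i f x * g x + f x * pd i g x := by
  simp [pd, fderiv_fun_mul hf hg]
  ring

lemma pd_pow (hf : DifferentiableAt ℝ f x) (k : ℕ) (i : Fin n) :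
    pd i (fun y => f y ^ k) x = k * f x ^ (k - 1) * pd i f x := by
  simp [pd, fderiv_fun_pow k hf, nsmul_eq_mul]

lemma pd_sum {ι : Type*} {s : Finset ι} {f : ι → (Fin n → ℝ) → ℝ}
    (hf : ∀ j ∈ s, DifferentiableAt ℝ (f j) x) (i : Fin n) :
    pd i (fun y => ∑ j ∈ s, f j y) x = ∑ j ∈ s, pd i (f j) x := by
  simp [pd, fderiv_fun_sum hf]

/-- Partial derivatives commute. -/
lemma pd_comm (hΩ : IsOpen Ω) (hf : Sm Ω f) (hx : x ∈ Ω) (i j : Fin n) :
    pd i (pd j f) x = pd j (pd i f) x := by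
  have hd : DifferentiableAt ℝ (fderiv ℝ f) x :=
    ((hf.contDiffAt hΩ hx).fderiv_right (m := 1) (WithTop.coe_le_coe.2 le_top)).differentiableAt
      (by simp)
  have key : ∀ a b : Fin n, pd a (pd b f) x =
      fderiv ℝ (fderiv ℝ f) x (Pi.single a 1) (Pi.single b 1) := by
    intro a b
    show fderiv ℝ (fun y => fderiv ℝ f y (Pi.single b 1)) x (Pi.single a 1) = _
    rw [fderiv_clm_apply hd (differentiableAt_const _)]
    simp
  rw [key, key]
  exact (hf.contDiffAt hΩ hx).isSymmSndFDerivAt (by simp; exact WithTop.coe_le_coe.2 le_top) _ _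

lemma hess_symm (hΩ : IsOpen Ω) (hf : Sm Ω f) (hx : x ∈ Ω) : (hess f x)ᵀ = hess f x := by
  ext i j
  exact pd_comm hΩ hf hx j i

/-! ### Matrices of functions -/

/-- The entrywise derivative of a matrix of functions. -/
def mpd (i : Fin n) (M : (Fin n → ℝ) → Matrix (Fin n) (Fin n) ℝ) (x : Fin n → ℝ) :
    Matrix (Fin n) (Fin n) ℝ :=
  Matrix.of fun a b => pd i (fun y => M y a b) x

/-- A smooth matrix of functions. -/
def MSm (Ω : Set (Fin n → ℝ)) (M : (Fin n → ℝ) → Matrix (Fin n) (Fin n) ℝ) : Prop :=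
  ∀ a b, Sm Ω fun y => M y a b

variable {M N : (Fin n → ℝ) → Matrix (Fin n) (Fin n) ℝ}

lemma MSm.mul (hM : MSm Ω M) (hN : MSm Ω N) : MSm Ω fun y => M y * N y := fun a b => by
  simp only [Matrix.mul_apply]
  exact sm_sum _ fun c _ => (hM a c).mul (hN c b)

lemma MSm.mpd (hΩ : IsOpen Ω) (hM : MSm Ω M) (i : Fin n) : MSm Ω (mpd i M) := fun a b =>
  (hM a b).pd hΩ i

lemma MSm.trace (hM : MSm Ω M) : Sm Ω fun y => (M y).trace := by
  simp only [Matrix.trace, Matrix.diag]
  exact sm_sum _ fun a _ => hM a a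

lemma mpd_congr_on (hΩ : IsOpen Ω) (hx : x ∈ Ω) (h : ∀ y ∈ Ω, M y = N y) (i : Fin n) :
    mpd i M x = mpd i N x := by
  ext a b
  exact pd_congr_on hΩ hx (fun y hy => by rw [h y hy]) i

lemma mpd_const (A : Matrix (Fin n) (Fin n) ℝ) (i : Fin n) : mpd i (fun _ => A) x = 0 := by
  ext a b
  exact pd_const _ i

lemma mpd_mul (hΩ : IsOpen Ω) (hM : MSm Ω M) (hN : MSm Ω N) (hx : x ∈ Ω) (i : Fin n) :
    mpd i (fun y => M y * N y) x = mpd i M x * N x + M x * mpd i N x := by
  ext a b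
  simp only [mpd, Matrix.of_apply, Matrix.add_apply, Matrix.mul_apply]
  rw [pd_sum (fun c _ => ((hM a c).mul (hN c b)).differentiableAt hΩ hx), ← sum_add_distrib]
  exact sum_congr rfl fun c _ =>
    pd_mul ((hM a c).differentiableAt hΩ hx) ((hN c b).differentiableAt hΩ hx) i

lemma mpd_sub (hΩ : IsOpen Ω) (hM : MSm Ω M) (hN : MSm Ω N) (hx : x ∈ Ω) (i : Fin n) :
    mpd i (fun y => M y - N y) x = mpd i M x - mpd i N x := by
  ext a b
  exact pd_sub ((hM a b).differentiableAt hΩ hx) ((hN a b).differentiableAt hΩ hx) i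

lemma pd_trace (hΩ : IsOpen Ω) (hM : MSm Ω M) (hx : x ∈ Ω) (i : Fin n) :
    pd i (fun y => (M y).trace) x = (mpd i M x).trace := by
  simp only [Matrix.trace, Matrix.diag]
  rw [pd_sum fun a _ => (hM a a).differentiableAt hΩ hx]
  rfl

lemma msm_hess (hΩ : IsOpen Ω) (hf : Sm Ω f) : MSm Ω (hess f) := fun a b => hf.hess hΩ a b

lemma sm_det (hM : MSm Ω M) : Sm Ω fun y => (M y).det := by
  simp only [Matrix.det_apply]
  exact ContDiffOn.sum fun σ _ => (contDiffOn_prod fun k _ => hM (σ k) k).const_smul _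

lemma msm_inv (hM : MSm Ω M) (h0 : ∀ y ∈ Ω, (M y).det ≠ 0) : MSm Ω fun y => (M y)⁻¹ := by
  intro a b
  simp only [Matrix.inv_def, Matrix.smul_apply, smul_eq_mul, Ring.inverse_eq_inv',
    Matrix.adjugate_apply]
  refine (ContDiffOn.inv (sm_det hM) h0).mul (sm_det fun c d => ?_)
  by_cases hc : c = b
  · subst hc
    simp only [Matrix.updateRow_self]
    exact contDiffOn_const
  · simp only [Matrix.updateRow_ne hc]
    exact hM c d

/-- The derivative of the inverse matrix. -/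
lemma mpd_inv (hΩ : IsOpen Ω) (hM : MSm Ω M) (h0 : ∀ y ∈ Ω, (M y).det ≠ 0) (hx : x ∈ Ω)
    (i : Fin n) : mpd i (fun y => (M y)⁻¹) x = -((M x)⁻¹ * mpd i M x * (M x)⁻¹) := by
  have hu : ∀ y ∈ Ω, IsUnit (M y).det := fun y hy => (h0 y hy).isUnit
  have h := mpd_mul hΩ hM (msm_inv hM h0) hx i
  rw [mpd_congr_on hΩ hx (fun y hy => Matrix.mul_nonsing_inv _ (hu y hy)) i, mpd_const] at h
  have h' := congrArg ((M x)⁻¹ * ·) h
  simp only [mul_zero, mul_add, ← mul_assoc, Matrix.nonsing_inv_mul _ (hu x hx), one_mul] at h'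
  exact (eq_neg_of_add_eq_zero_right h'.symm)

/-- Jacobi's formula. -/
lemma pd_det (hΩ : IsOpen Ω) (hM : MSm Ω M) (h0 : (M x).det ≠ 0) (hx : x ∈ Ω) (i : Fin n) :
    pd i (fun y => (M y).det) x = (M x).det * ((M x)⁻¹ * mpd i M x).trace := by
  classical
  have hd : ∀ a b, DifferentiableAt ℝ (fun y => M y a b) x := fun a b =>
    (hM a b).differentiableAt hΩ hx
  have hrow : pd i (fun y => (M y).det) x =
      ∑ k, ((M x).updateRow k (mpd i M x k)).det := by
    have hp : ∀ σ : Equiv.Perm (Fin n), DifferentiableAt ℝ (fun y => ∏ k, M y (σ k) k) x :=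
      fun σ => (HasFDerivAt.finsetProd fun k _ => (hd (σ k) k).hasFDerivAt).differentiableAt
    simp only [pd, Matrix.det_apply']
    rw [fderiv_fun_sum fun σ _ => (hp σ).const_mul _]
    simp only [ContinuousLinearMap.sum_apply]
    rw [sum_comm (f := fun k σ => _)]
    refine sum_congr rfl fun σ _ => ?_
    rw [fderiv_const_mul (hp σ),
      fderiv_finsetProd fun k _ => hd _ _]
    simp only [ContinuousLinearMap.smul_apply, ContinuousLinearMap.sum_apply, smul_eq_mul,
      mul_sum]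
    rw [← Equiv.sum_comp σ (fun k => ((Equiv.Perm.sign σ : ℤ) : ℝ) *
      ∏ l, (M x).updateRow k (mpd i M x k) (σ l) l)]
    refine sum_congr rfl fun k _ => ?_
    congr 1
    rw [← Finset.prod_erase_mul univ _ (mem_univ k), Matrix.updateRow_self]
    simp only [mpd, Matrix.of_apply, pd]
    congr 1
    refine prod_congr rfl fun l hl => ?_
    rw [Matrix.updateRow_ne]
    exact fun he => (mem_erase.1 hl).1 (σ.injective he)
  have e : (M x).det • ((M x)⁻¹ * mpd i M x) = (M x).adjugate * mpd i M x := by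
    rw [← Matrix.smul_mul, Matrix.inv_def, smul_smul, Ring.inverse_eq_inv', mul_inv_cancel₀ h0,
      one_smul]
  rw [hrow, ← smul_eq_mul, ← Matrix.trace_smul, e]
  simp only [Matrix.trace, Matrix.diag_apply, Matrix.mul_apply]
  rw [Finset.sum_comm (f := fun a b => (M x).adjugate a b * mpd i M x b a)]
  refine sum_congr rfl fun k _ => ?_
  rw [← Matrix.cramer_transpose_apply, Matrix.cramer_eq_adjugate_mulVec, ← Matrix.adjugate_transpose]
  simp only [Matrix.mulVec, dotProduct, Matrix.transpose_apply]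

/-! ### Affine changes of variables -/

/-- The affine map `y ↦ x₀ + B y`. -/
def affMap (B : Matrix (Fin n) (Fin n) ℝ) (x₀ : Fin n → ℝ) (y : Fin n → ℝ) : Fin n → ℝ :=
  fun a => x₀ a + ∑ b, B a b * y b

lemma contDiff_affMap (B : Matrix (Fin n) (Fin n) ℝ) (x₀ : Fin n → ℝ) :
    ContDiff ℝ ∞ (affMap B x₀) := by
  unfold affMap; fun_prop

lemma pd_comp_affMap (B : Matrix (Fin n) (Fin n) ℝ) (x₀ : Fin n → ℝ) {y : Fin n → ℝ}
    (hf : DifferentiableAt ℝ f (affMap B x₀ y)) (i : Fin n) :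
    pd i (fun z => f (affMap B x₀ z)) y = ∑ a, B a i * pd a f (affMap B x₀ y) := by
  have hA : DifferentiableAt ℝ (affMap B x₀) y :=
    (contDiff_affMap B x₀).differentiable (by simp) y
  have hv : fderiv ℝ (affMap B x₀) y (Pi.single i 1) = fun a => B a i := by
    funext a
    rw [show (fderiv ℝ (affMap B x₀) y (Pi.single i 1)) a =
        pd i (fun z => affMap B x₀ z a) y from by
      rw [fderiv_pi (fun b => (differentiableAt_pi.1 hA b))]; rfl]
    have hb : ∀ b, DifferentiableAt ℝ (fun z : Fin n → ℝ => z b) y :=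
      fun b => differentiableAt_apply b y
    have hpd : ∀ b, pd i (fun z : Fin n → ℝ => z b) y = if b = i then 1 else 0 := fun b => by
      rw [pd, (hasFDerivAt_apply b y).fderiv]
      simp [Pi.single_apply]
    simp only [affMap]
    rw [pd_add (differentiableAt_const _) (DifferentiableAt.fun_sum fun b _ =>
      (hb b).const_mul (B a b)), pd_const,
      pd_sum fun b _ => (hb b).const_mul (B a b)]
    simp [pd_mul (differentiableAt_const _) (hb _), pd_const, hpd]
  show fderiv ℝ (f ∘ affMap B x₀) y (Pi.single i 1) = _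
  rw [fderiv_comp y hf hA, ContinuousLinearMap.comp_apply, hv,
    show (fun a => B a i) = ∑ a, B a i • (Pi.single a 1 : Fin n → ℝ) from
      pi_eq_sum_univ' (fun a => B a i), map_sum]
  simp only [map_smul, smul_eq_mul, pd]

/-! ### Interior maxima -/

/-- At an interior maximum the gradient vanishes and the pure second derivatives are `≤ 0`. -/
lemma pd_of_isLocalMax (hΩ : IsOpen Ω) (hf : Sm Ω f) (hx : x ∈ Ω) (hmax : IsLocalMax f x)
    (i : Fin n) : pd i f x = 0 ∧ pd i (pd i f) x ≤ 0 := by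
  set v : Fin n → ℝ := Pi.single i 1
  refine ⟨by simp [pd, hmax.fderiv_eq_zero], ?_⟩
  by_contra! hpos
  set line : ℝ → (Fin n → ℝ) := fun s => x + s • v
  have hline : ∀ s, HasDerivAt line v s := fun s => by
    exact (((hasDerivAt_id' s).smul_const v).const_add x).congr_deriv (one_smul ℝ v)
  have h0 : line 0 = x := by simp [line]
  have hc : Continuous line := by fun_prop
  have hmem : ∀ᶠ s in 𝓝 (0 : ℝ), line s ∈ Ω :=
    hc.continuousAt.preimage_mem_nhds (hΩ.mem_nhds (by rwa [h0]))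
  have hd1 : ∀ᶠ s in 𝓝 (0 : ℝ), deriv (fun s => f (line s)) s = pd i f (line s) := by
    filter_upwards [hmem] with s hs
    exact ((hf.differentiableAt hΩ hs).hasFDerivAt.comp_hasDerivAt s (hline s)).deriv
  have hd2 : deriv (deriv fun s => f (line s)) 0 = pd i (pd i f) x := by
    rw [Filter.EventuallyEq.deriv_eq hd1, show x = line 0 from h0.symm]
    exact (((hf.pd hΩ i).differentiableAt hΩ (by rwa [h0])).hasFDerivAt.comp_hasDerivAt 0
      (hline 0)).deriv
  have hmax1 : IsLocalMax (fun s => f (line s)) 0 := by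
    have h := hmax
    rw [← h0] at h
    exact h.comp_continuous hc.continuousAt
  have hmin : IsLocalMin (fun s => f (line s)) 0 :=
    isLocalMin_of_deriv_deriv_pos (by rw [hd2]; exact hpos) hmax1.deriv_eq_zero
      ((hf.differentiableAt hΩ (by rwa [h0])).continuousAt.comp hc.continuousAt)
  have hconst : (fun s => f (line s)) =ᶠ[𝓝 0] fun _ => f (line 0) := by
    filter_upwards [hmax1, hmin] with s h1 h2 using le_antisymm h1 h2
  have : deriv (deriv fun s => f (line s)) 0 = 0 := by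
    rw [Filter.EventuallyEq.deriv_eq hconst.deriv]
    simp
  linarith

end

end Vale.Agent.P252
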