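import Vale.Agent.P252.Rigidity.Sublevel

/-!
# P252: a Euclidean complete locally uniformly convex graph has closed sublevel sets

Completeness is used as: every curve in the graph of finite length has an endpoint in the graph.
-/

noncomputable section

namespace Vale.Agent.P252.Rigidity

open MeasureTheory Set Filter Topology
open scoped ContDiff

variable {n : ℕ} {W : Set (Fin n → ℝ)} {u : (Fin n → ℝ) → ℝ}

/-- The speed of the curve `t ↦ (γ t, u (γ t))` for `g_ij = δ_ij + u_i u_j`. -/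
def graphSpeed (u : (Fin n → ℝ) → ℝ) (γ : ℝ → Fin n → ℝ) (t : ℝ) : ℝ :=
  Real.sqrt ((∑ i, deriv γ t i ^ 2) + fderiv ℝ u (γ t) (deriv γ t) ^ 2)

/-- Euclidean completeness of the graph of `u` over `W`: every curve of finite length has an
endpoint in the graph. -/
def GraphComplete (W : Set (Fin n → ℝ)) (u : (Fin n → ℝ) → ℝ) : Prop :=
  ∀ γ : ℝ → Fin n → ℝ, (∀ t ∈ Ico (0 : ℝ) 1, γ t ∈ W) → ContDiff ℝ ∞ γ →
    IntegrableOn (graphSpeed u γ) (Ioo 0 1) → ∃ z ∈ W, Tendsto γ (𝓝[<] 1) (𝓝 z)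

/-- Monotone bounded primitives give integrability of nonnegative derivatives. -/
theorem integrableOn_of_bounded_primitive {G G' : ℝ → ℝ} {M : ℝ}
    (hd : ∀ t ∈ Ico (0 : ℝ) 1, HasDerivAt G (G' t) t) (hc : ContinuousOn G' (Ico 0 1))
    (hnn : ∀ t ∈ Ico (0 : ℝ) 1, 0 ≤ G' t) (hM : ∀ t ∈ Ico (0 : ℝ) 1, G t ≤ M) :
    IntegrableOn G' (Ioo 0 1) := by
  refine IntegrableOn.mono_set ?_ Ioo_subset_Ioc_self
  set b : ℕ → ℝ := fun k => 1 - 1 / ((k : ℝ) + 1) with hb
  have hbI : ∀ k, b k ∈ Ico (0 : ℝ) 1 := fun k => by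
    have h1 : 1 / ((k : ℝ) + 1) ≤ 1 := by
      rw [div_le_one (by positivity)]; linarith [Nat.cast_nonneg (α := ℝ) k]
    have h2 : 0 < 1 / ((k : ℝ) + 1) := by positivity
    exact ⟨by simp only [hb]; linarith, by simp only [hb]; linarith⟩
  have hsub : ∀ k, Icc (0 : ℝ) (b k) ⊆ Ico 0 1 := fun k t ht =>
    ⟨ht.1, ht.2.trans_lt (hbI k).2⟩
  refine integrableOn_Ioc_of_intervalIntegral_norm_bounded_right (I := M - G 0)
    (fun k => ((hc.mono (hsub k)).integrableOn_Icc).mono_set Ioc_subset_Icc_self)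
    (by simpa [hb] using
      (tendsto_const_nhds (x := (1 : ℝ))).sub tendsto_one_div_add_atTop_nhds_zero_nat)
    (Eventually.of_forall fun k => ?_)
  rw [setIntegral_congr_fun measurableSet_Ioc (g := G') fun t ht =>
    Real.norm_of_nonneg (hnn t (hsub k ⟨ht.1.le, ht.2⟩)),
    ← intervalIntegral.integral_of_le (hbI k).1,
    intervalIntegral.integral_eq_sub_of_hasDerivAt (fun t ht => hd t (hsub k (by
      rwa [uIcc_of_le (hbI k).1] at ht)))
      ((hc.mono (hsub k)).intervalIntegrable_of_Icc (hbI k).1)]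
  linarith [hM _ (hbI k)]

/-- A Euclidean complete graph has closed sublevel sets. -/
theorem isClosed_sublevel_of_complete (hW : IsOpen W) (hc : Convex ℝ W)
    (hu : ContDiffOn ℝ ∞ u W) (hpos : ∀ x ∈ W, (hess u x).PosDef) (hcomp : GraphComplete W u)
    (R : ℝ) : IsClosed {x | x ∈ W ∧ u x ≤ R} := by
  rcases W.eq_empty_or_nonempty with h | ⟨x₀, h0⟩
  · simp [h]
  refine isClosed_of_closure_subset fun z hz => ?_
  obtain ⟨f, hf, hlim⟩ := mem_closure_iff_seq_limit.1 hz
  suffices hzW : z ∈ W from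
    ⟨hzW, le_of_tendsto (((hu.continuousOn.continuousAt (hW.mem_nhds hzW)).tendsto).comp hlim)
      (Eventually.of_forall fun k => (hf k).2)⟩
  set h := z - x₀ with hh
  set γ : ℝ → Fin n → ℝ := fun t => x₀ + t • h with hγ
  have hzcl : z ∈ closure W := mem_closure_of_tendsto hlim (Eventually.of_forall fun k => (hf k).1)
  have hmem : ∀ t ∈ Ico (0 : ℝ) 1, γ t ∈ W := fun t ht => by
    have h1 := hc.add_smul_sub_mem_interior' hzcl (hW.interior_eq.symm ▸ h0) (t := 1 - t)
      ⟨by linarith [ht.2], by linarith [ht.1]⟩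
    rw [hW.interior_eq] at h1
    convert h1 using 1
    simp only [hγ, hh, sub_smul, one_smul, smul_sub]
    abel
  have hγd : ∀ t, HasDerivAt γ h t := fun t => by
    simpa [hγ] using ((hasDerivAt_id t).smul_const h).const_add x₀
  have hdu : ContinuousOn (fun y => fderiv ℝ u y h) W :=
    (hu.continuousOn_fderiv_of_isOpen hW (by simp)).clm_apply continuousOn_const
  have hG : ∀ t ∈ Ico (0 : ℝ) 1, HasDerivAt (fun t => tangentGap u x₀ (γ t))
      (fderiv ℝ u (γ t) h - fderiv ℝ u x₀ h) t := fun t ht =>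
    HasFDerivAt.comp_hasDerivAt (l := tangentGap u x₀) t
      (hasFDerivAt_tangentGap (differentiableAt_of_mem hW hu (hmem t ht))) (hγd t)
  have hnn : ∀ t ∈ Ico (0 : ℝ) 1, 0 ≤ fderiv ℝ u (γ t) h - fderiv ℝ u x₀ h := by
    intro t ht
    rcases ht.1.eq_or_lt with rfl | ht0
    · simp [hγ]
    rcases eq_or_ne h 0 with h00 | hne
    · simp [h00]
    obtain ⟨g', hg0, hmono, hd⟩ := segment_deriv hW hc hu hpos h0 (h := t • h) (hmem t ht)
      (smul_ne_zero ht0.ne' hne)
    have hline : HasDerivAt (fun s : ℝ => x₀ + s • (t • h)) (t • h) 1 := by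
      simpa using ((hasDerivAt_id (1 : ℝ)).smul_const (t • h)).const_add x₀
    have h2 : HasDerivAt (fun s : ℝ => tangentGap u x₀ (x₀ + s • (t • h)))
        ((fderiv ℝ u (γ t) - fderiv ℝ u x₀) (t • h)) 1 :=
      HasFDerivAt.comp_hasDerivAt (l := tangentGap u x₀) (f := fun s : ℝ => x₀ + s • (t • h))
        (l' := fderiv ℝ u (γ t) - fderiv ℝ u x₀) 1
        (by
          rw [show x₀ + (1 : ℝ) • (t • h) = γ t by simp [hγ]]
          exact hasFDerivAt_tangentGap (differentiableAt_of_mem hW hu (hmem t ht))) hline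
    have h3 : 0 < g' 1 := by
      rw [← hg0]; exact hmono ⟨le_rfl, zero_le_one⟩ ⟨zero_le_one, le_rfl⟩ zero_lt_one
    rw [(hd 1 ⟨zero_le_one, le_rfl⟩).unique h2, sub_apply, map_smul, map_smul,
      smul_eq_mul, smul_eq_mul, ← mul_sub] at h3
    exact (pos_of_mul_pos_right h3 ht0.le).le
  obtain ⟨M, hM⟩ : ∃ M, ∀ k, tangentGap u x₀ (f k) ≤ M := by
    have hl : Tendsto (fun k => fderiv ℝ u x₀ (f k - x₀)) atTop (𝓝 (fderiv ℝ u x₀ h)) :=
      ((fderiv ℝ u x₀).continuous.tendsto _).comp (hlim.sub_const x₀)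
    obtain ⟨A, hA⟩ := hl.bddBelow_range
    refine ⟨R - u x₀ - A, fun k => ?_⟩
    simp only [tangentGap]
    linarith [(hf k).2, hA ⟨k, rfl⟩]
  have hM0 : 0 ≤ M := (gap_nonneg hW hc hu hpos h0 (hf 0).1).trans (hM 0)
  have hbd : ∀ t ∈ Ico (0 : ℝ) 1, tangentGap u x₀ (γ t) ≤ M := by
    intro t ht
    rcases ht.1.eq_or_lt with rfl | ht0
    · simpa [hγ, tangentGap_self] using hM0
    have hl : Tendsto (fun k => x₀ + t • (f k - x₀)) atTop (𝓝 (γ t)) :=
      tendsto_const_nhds.add ((hlim.sub_const x₀).const_smul t)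
    refine le_of_tendsto ((((contDiffOn_tangentGap hu).continuousOn.continuousAt
      (hW.mem_nhds (hmem t ht))).tendsto).comp hl) (Eventually.of_forall fun k => ?_)
    rcases eq_or_ne (f k) x₀ with he | hne
    · simp [he, tangentGap_self, hM0]
    · exact ((gap_smul_le hW hc hu hpos h0 (hf k).1 hne ⟨ht0, ht.2⟩).2).trans
        ((mul_le_of_le_one_left (gap_nonneg hW hc hu hpos h0 (hf k).1) ht.2.le).trans (hM k))
  have hcont : ContinuousOn (fun t => fderiv ℝ u (γ t) h) (Ico 0 1) :=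
    hdu.comp (Continuous.continuousOn (by fun_prop)) hmem
  have hint : IntegrableOn (fun t => fderiv ℝ u (γ t) h - fderiv ℝ u x₀ h) (Ioo 0 1) :=
    integrableOn_of_bounded_primitive hG (hcont.sub continuousOn_const) hnn hbd
  have hspeed : IntegrableOn (graphSpeed u γ) (Ioo 0 1) := by
    have hcs : ContinuousOn (graphSpeed u γ) (Ioo 0 1) := by
      unfold graphSpeed
      simp only [(hγd _).deriv]
      exact Real.continuous_sqrt.comp_continuousOn
        (continuousOn_const.add ((hcont.mono Ioo_subset_Ico_self).pow 2))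
    refine Integrable.mono' (g := fun t => (Real.sqrt (∑ i, h i ^ 2) + |fderiv ℝ u x₀ h|)
        + (fderiv ℝ u (γ t) h - fderiv ℝ u x₀ h))
      (((continuous_const (y := Real.sqrt (∑ i, h i ^ 2) + |fderiv ℝ u x₀ h|)).integrableOn_Ioc.mono_set
        Ioo_subset_Ioc_self).add hint) (hcs.aestronglyMeasurable measurableSet_Ioo) ?_
    refine (ae_restrict_mem measurableSet_Ioo).mono fun t ht => ?_
    rw [graphSpeed, (hγd t).deriv, Real.norm_of_nonneg (Real.sqrt_nonneg _)]
    set A := ∑ i, h i ^ 2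
    set d := fderiv ℝ u (γ t) h
    have hA : 0 ≤ A := Finset.sum_nonneg fun i _ => sq_nonneg _
    have h1 : Real.sqrt (A + d ^ 2) ≤ Real.sqrt A + |d| := by
      rw [Real.sqrt_le_iff]
      exact ⟨by positivity, by
        nlinarith [Real.sq_sqrt hA, sq_abs d, Real.sqrt_nonneg A, abs_nonneg d]⟩
    refine h1.trans ?_
    have h2 := abs_add_le (fderiv ℝ u x₀ h) (d - fderiv ℝ u x₀ h)
    rw [add_sub_cancel, abs_of_nonneg (hnn t (Ioo_subset_Ico_self ht))] at h2
    linarith
  obtain ⟨y, hy, hlimy⟩ := hcomp γ hmem (by fun_prop) hspeed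
  have hzt : Tendsto γ (𝓝[<] 1) (𝓝 z) := by
    have : γ 1 = z := by simp [hγ, hh]
    rw [← this]
    exact ((hγd 1).continuousAt).tendsto.mono_left nhdsWithin_le_nhds
  rwa [tendsto_nhds_unique hzt hlimy]

end Vale.Agent.P252.Rigidity
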