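import Vale.Agent.P252.Defs

/-!
# P252: sublevel sets of a locally uniformly convex closed graph

After subtracting a tangent affine function the sublevel sets are compact and of volume
`O(R^n)`.
-/

noncomputable section

namespace Vale.Agent.P252.Rigidity

open MeasureTheory Set Filter Topology
open scoped Matrix ContDiff

variable {n : ℕ} {W : Set (Fin n → ℝ)} {u : (Fin n → ℝ) → ℝ} {x₀ : Fin n → ℝ}

/-- The gap between `u` and its tangent affine function at `x₀`. -/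
def tangentGap (u : (Fin n → ℝ) → ℝ) (x₀ x : Fin n → ℝ) : ℝ :=
  u x - u x₀ - fderiv ℝ u x₀ (x - x₀)

theorem tangentGap_self (u : (Fin n → ℝ) → ℝ) (x₀ : Fin n → ℝ) : tangentGap u x₀ x₀ = 0 := by
  simp [tangentGap]

theorem contDiffOn_tangentGap (hu : ContDiffOn ℝ ∞ u W) :
    ContDiffOn ℝ ∞ (tangentGap u x₀) W := by
  unfold tangentGap
  fun_prop

theorem hasFDerivAt_tangentGap {x : Fin n → ℝ} (hu : DifferentiableAt ℝ u x) :
    HasFDerivAt (tangentGap u x₀) (fderiv ℝ u x - fderiv ℝ u x₀) x := by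
  have h := ((hu.hasFDerivAt.sub_const (u x₀)).sub
    ((fderiv ℝ u x₀).hasFDerivAt.comp x ((hasFDerivAt_id x).sub_const x₀)))
  exact h.congr_fderiv (by rw [ContinuousLinearMap.comp_id])

theorem differentiableAt_of_mem (hW : IsOpen W) (hu : ContDiffOn ℝ ∞ u W) {x : Fin n → ℝ}
    (hx : x ∈ W) : DifferentiableAt ℝ u x :=
  ((hu.differentiableOn (by simp)) x hx).differentiableAt (hW.mem_nhds hx)

/-- Subtracting the tangent does not change the Hessian. -/
theorem hess_tangentGap (hW : IsOpen W) (hu : ContDiffOn ℝ ∞ u W) {x : Fin n → ℝ} (hx : x ∈ W) :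
    hess (tangentGap u x₀) x = hess u x := by
  ext i j
  simp only [hess, pd, Matrix.of_apply]
  have h : (fun y => fderiv ℝ (tangentGap u x₀) y (Pi.single j 1)) =ᶠ[𝓝 x]
      fun y => fderiv ℝ u y (Pi.single j 1) - fderiv ℝ u x₀ (Pi.single j 1) := by
    filter_upwards [hW.mem_nhds hx] with y hy
    rw [(hasFDerivAt_tangentGap (differentiableAt_of_mem hW hu hy)).fderiv]
    rfl
  rw [h.fderiv_eq, fderiv_sub_const]

/-- The Hessian as the second derivative. -/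
theorem fderiv_fderiv_apply (hW : IsOpen W) (hu : ContDiffOn ℝ ∞ u W) {x : Fin n → ℝ} (hx : x ∈ W)
    (h : Fin n → ℝ) : fderiv ℝ (fderiv ℝ u) x h h = h ⬝ᵥ (hess u x *ᵥ h) := by
  have hd : DifferentiableAt ℝ (fderiv ℝ u) x :=
    ((hu.fderiv_of_isOpen (m := ∞) hW (by simp)).differentiableOn (by simp) x hx).differentiableAt
      (hW.mem_nhds hx)
  have he : ∀ i j, hess u x i j
      = fderiv ℝ (fderiv ℝ u) x (Pi.single i 1) (Pi.single j 1) := fun i j => by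
    simp only [hess, pd, Matrix.of_apply]
    rw [fderiv_clm_apply hd (differentiableAt_const _)]
    simp
  conv_lhs => rw [pi_eq_sum_univ' h]
  simp only [map_sum, map_smul, sum_apply, smul_apply, smul_eq_mul,
    dotProduct, Matrix.mulVec, he, Finset.mul_sum]
  rw [Finset.sum_comm]
  refine Finset.sum_congr rfl fun i _ => Finset.sum_congr rfl fun j _ => ?_
  ring

/-- The restriction to a segment issued from `x₀`: derivative and strict increase of it. -/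
theorem segment_deriv (hW : IsOpen W) (hc : Convex ℝ W) (hu : ContDiffOn ℝ ∞ u W)
    (hpos : ∀ x ∈ W, (hess u x).PosDef) (h0 : x₀ ∈ W) {h : Fin n → ℝ} (h1 : x₀ + h ∈ W)
    (hne : h ≠ 0) :
    ∃ g' : ℝ → ℝ, g' 0 = 0 ∧ StrictMonoOn g' (Icc 0 1) ∧
      ∀ t ∈ Icc (0 : ℝ) 1, HasDerivAt (fun t : ℝ => tangentGap u x₀ (x₀ + t • h)) (g' t) t := by
  have hmem : ∀ t ∈ Icc (0 : ℝ) 1, x₀ + t • h ∈ W := fun t ht => by
    have := hc.add_smul_sub_mem h0 h1 ht
    simpa using this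
  have hline : ∀ t : ℝ, HasDerivAt (fun t : ℝ => x₀ + t • h) h t := fun t => by
    simpa using ((hasDerivAt_id t).smul_const h).const_add x₀
  refine ⟨fun t => fderiv ℝ u (x₀ + t • h) h - fderiv ℝ u x₀ h, by simp, ?_, fun t ht => ?_⟩
  · have h2 : ∀ t ∈ Icc (0 : ℝ) 1, HasDerivAt (fun t => fderiv ℝ u (x₀ + t • h) h
        - fderiv ℝ u x₀ h) (h ⬝ᵥ (hess u (x₀ + t • h) *ᵥ h)) t := by
      intro t ht
      have hd : DifferentiableAt ℝ (fderiv ℝ u) (x₀ + t • h) :=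
        ((hu.fderiv_of_isOpen (m := ∞) hW (by simp)).differentiableOn (by simp) _
          (hmem t ht)).differentiableAt (hW.mem_nhds (hmem t ht))
      have hA : HasDerivAt (fun s : ℝ => fderiv ℝ u (x₀ + s • h))
          (fderiv ℝ (fderiv ℝ u) (x₀ + t • h) h) t :=
        HasFDerivAt.comp_hasDerivAt (l := fderiv ℝ u) t hd.hasFDerivAt (hline t)
      have hB : HasDerivAt (fun s : ℝ => fderiv ℝ u (x₀ + s • h) h)
          (fderiv ℝ (fderiv ℝ u) (x₀ + t • h) h h) t := by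
        have hev := (ContinuousLinearMap.apply ℝ ℝ h).hasFDerivAt
          (x := fderiv ℝ u (x₀ + t • h))
        exact HasFDerivAt.comp_hasDerivAt
          (l := (ContinuousLinearMap.apply ℝ ℝ h : ((Fin n → ℝ) →L[ℝ] ℝ) →L[ℝ] ℝ))
          (f := fun s : ℝ => fderiv ℝ u (x₀ + s • h)) t hev hA
      rw [← fderiv_fderiv_apply hW hu (hmem t ht)]
      exact hB.sub_const _
    refine strictMonoOn_of_deriv_pos (convex_Icc 0 1) (fun t ht => (h2 t ht).continuousAt.continuousWithinAt)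
      fun t ht => ?_
    rw [interior_Icc] at ht
    rw [(h2 t (Ioo_subset_Icc_self ht)).deriv]
    simpa using (hpos _ (hmem t (Ioo_subset_Icc_self ht))).dotProduct_mulVec_pos hne
  · exact HasFDerivAt.comp_hasDerivAt (l := tangentGap u x₀) t
      (hasFDerivAt_tangentGap (differentiableAt_of_mem hW hu (hmem t ht))) (hline t)

/-- Along a segment from `x₀` the gap is at most linear, and it is positive off `x₀`. -/
theorem gap_smul_le (hW : IsOpen W) (hc : Convex ℝ W) (hu : ContDiffOn ℝ ∞ u W)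
    (hpos : ∀ x ∈ W, (hess u x).PosDef) (h0 : x₀ ∈ W) {x : Fin n → ℝ} (hx : x ∈ W)
    (hne : x ≠ x₀) {s : ℝ} (hs : s ∈ Ioo (0 : ℝ) 1) :
    0 < tangentGap u x₀ x ∧
      tangentGap u x₀ (x₀ + s • (x - x₀)) ≤ s * tangentGap u x₀ x := by
  obtain ⟨g', hg0, hmono, hd⟩ := segment_deriv hW hc hu hpos h0 (h := x - x₀) (by simpa using hx)
    (sub_ne_zero.2 hne)
  set g : ℝ → ℝ := fun t => tangentGap u x₀ (x₀ + t • (x - x₀)) with hg
  have g0 : g 0 = 0 := by simp [hg, tangentGap_self]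
  have g1 : g 1 = tangentGap u x₀ x := by simp [hg]
  have hI : ∀ a b, 0 ≤ a → b ≤ 1 → a < b → ∃ c ∈ Ioo a b, g' c = (g b - g a) / (b - a) := by
    intro a b ha hb hab
    exact exists_hasDerivAt_eq_slope g g' hab
      (fun t ht => (hd t ⟨ha.trans ht.1, ht.2.trans hb⟩).continuousAt.continuousWithinAt)
      fun t ht => hd t ⟨ha.trans ht.1.le, ht.2.le.trans hb⟩
  obtain ⟨c1, hc1, e1⟩ := hI 0 s le_rfl hs.2.le hs.1
  obtain ⟨c2, hc2, e2⟩ := hI s 1 hs.1.le le_rfl hs.2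
  have p1 : 0 < g' c1 := by
    rw [← hg0]
    exact hmono ⟨le_rfl, zero_le_one⟩ ⟨hc1.1.le, by linarith [hc1.2, hs.2]⟩ hc1.1
  have p2 : g' c1 < g' c2 :=
    hmono ⟨hc1.1.le, by linarith [hc1.2, hs.2]⟩ ⟨by linarith [hc2.1, hs.1], hc2.2.le⟩
      (hc1.2.trans hc2.1)
  rw [g0, sub_zero, sub_zero, eq_div_iff hs.1.ne'] at e1
  rw [eq_div_iff (sub_pos.2 hs.2).ne'] at e2
  rw [g1] at e2
  have p3 := mul_pos p1 hs.1
  have p4 := mul_pos (p1.trans p2) (sub_pos.2 hs.2)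
  refine ⟨by linarith, ?_⟩
  show g s ≤ s * tangentGap u x₀ x
  nlinarith [mul_nonneg (mul_nonneg hs.1.le (sub_nonneg.2 hs.2.le)) (sub_nonneg.2 p2.le)]

theorem gap_pos (hW : IsOpen W) (hc : Convex ℝ W) (hu : ContDiffOn ℝ ∞ u W)
    (hpos : ∀ x ∈ W, (hess u x).PosDef) (h0 : x₀ ∈ W) {x : Fin n → ℝ} (hx : x ∈ W)
    (hne : x ≠ x₀) : 0 < tangentGap u x₀ x :=
  (gap_smul_le hW hc hu hpos h0 hx hne (s := 1 / 2) ⟨by norm_num, by norm_num⟩).1

theorem gap_nonneg (hW : IsOpen W) (hc : Convex ℝ W) (hu : ContDiffOn ℝ ∞ u W)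
    (hpos : ∀ x ∈ W, (hess u x).PosDef) (h0 : x₀ ∈ W) {x : Fin n → ℝ} (hx : x ∈ W) :
    0 ≤ tangentGap u x₀ x := by
  rcases eq_or_ne x x₀ with rfl | hne
  · rw [tangentGap_self]
  · exact (gap_pos hW hc hu hpos h0 hx hne).le

/-- The gap grows at least linearly. -/
theorem exists_linear_growth (hW : IsOpen W) (hc : Convex ℝ W) (hu : ContDiffOn ℝ ∞ u W)
    (hpos : ∀ x ∈ W, (hess u x).PosDef) (h0 : x₀ ∈ W) :
    ∃ a b : ℝ, 0 < a ∧ 0 ≤ b ∧ ∀ x ∈ W, a * ‖x - x₀‖ - b ≤ tangentGap u x₀ x := by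
  obtain ⟨r, hr, hball⟩ := Metric.isOpen_iff.1 hW x₀ h0
  set K := Metric.sphere x₀ (r / 2)
  have hKW : K ⊆ W := fun y hy => hball (by
    rw [Metric.mem_ball, Metric.mem_sphere.1 hy]; linarith)
  obtain ⟨m, hm, hmK⟩ : ∃ m, 0 < m ∧ ∀ y ∈ K, m ≤ tangentGap u x₀ y := by
    rcases K.eq_empty_or_nonempty with h | h
    · exact ⟨1, one_pos, by simp [h]⟩
    · obtain ⟨y, hy, hmin⟩ := (isCompact_sphere x₀ (r / 2)).exists_isMinOn h
        ((contDiffOn_tangentGap hu).continuousOn.mono hKW)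
      refine ⟨_, gap_pos hW hc hu hpos h0 (hKW hy) (fun e => ?_), fun z hz => hmin hz⟩
      rw [e, Metric.mem_sphere, dist_self] at hy
      linarith
  refine ⟨m / (r / 2), m, by positivity, hm.le, fun x hx => ?_⟩
  rcases le_or_gt ‖x - x₀‖ (r / 2) with h | h
  · refine le_trans ?_ (gap_nonneg hW hc hu hpos h0 hx)
    rw [sub_nonpos, div_mul_eq_mul_div, div_le_iff₀ (by positivity)]
    exact mul_le_mul_of_nonneg_left h hm.le
  · have hx0 : x ≠ x₀ := fun e => by simp [e] at h; linarith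
    set d := ‖x - x₀‖
    have hd : 0 < d := lt_trans (by positivity) h
    have hs : r / 2 / d ∈ Ioo (0 : ℝ) 1 := ⟨by positivity, by rw [div_lt_one hd]; exact h⟩
    obtain ⟨-, hle⟩ := gap_smul_le hW hc hu hpos h0 hx hx0 hs
    have hK : x₀ + (r / 2 / d) • (x - x₀) ∈ K := by
      rw [Metric.mem_sphere, dist_eq_norm, add_sub_cancel_left, norm_smul,
        Real.norm_of_nonneg hs.1.le, div_mul_cancel₀ _ hd.ne']
    have h2 := (hmK _ hK).trans hle
    rw [div_mul_eq_mul_div, le_div_iff₀ hd] at h2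
    have : m * d / (r / 2) ≤ tangentGap u x₀ x := by
      rw [div_le_iff₀ (by positivity)]; linarith
    rw [div_mul_eq_mul_div]
    linarith

/-- A closed graph has closed sublevel sets. -/
theorem isClosed_sublevel_of_graph (hW : IsOpen W) (hc : Convex ℝ W) (hu : ContDiffOn ℝ ∞ u W)
    (hpos : ∀ x ∈ W, (hess u x).PosDef)
    (hgr : IsClosed {p : (Fin n → ℝ) × ℝ | p.1 ∈ W ∧ u p.1 = p.2}) (R : ℝ) :
    IsClosed {x | x ∈ W ∧ u x ≤ R} := by
  rcases W.eq_empty_or_nonempty with h | ⟨x₁, h1⟩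
  · simp [h]
  refine isClosed_of_closure_subset fun z hz => ?_
  obtain ⟨f, hf, hlim⟩ := mem_closure_iff_seq_limit.1 hz
  have hbd : ∀ k, u x₁ + fderiv ℝ u x₁ (f k - x₁) ≤ u (f k) := fun k => by
    have := gap_nonneg hW hc hu hpos h1 (hf k).1
    simp only [tangentGap] at this
    linarith
  have hl : Tendsto (fun k => u x₁ + fderiv ℝ u x₁ (f k - x₁)) atTop
      (𝓝 (u x₁ + fderiv ℝ u x₁ (z - x₁))) :=
    tendsto_const_nhds.add (((fderiv ℝ u x₁).continuous.tendsto _).comp (hlim.sub_const x₁))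
  obtain ⟨A, hA⟩ := hl.bddBelow_range
  obtain ⟨L, hL, φ, hφ, hφlim⟩ := (isCompact_Icc (a := A) (b := R)).tendsto_subseq
    (x := fun k => u (f k)) fun k => ⟨(hA ⟨k, rfl⟩).trans (hbd k), (hf k).2⟩
  have hp : (z, L) ∈ {p : (Fin n → ℝ) × ℝ | p.1 ∈ W ∧ u p.1 = p.2} :=
    hgr.mem_of_tendsto ((hlim.comp hφ.tendsto_atTop).prodMk_nhds hφlim)
      (Eventually.of_forall fun k => ⟨(hf (φ k)).1, rfl⟩)
  exact ⟨hp.1, hp.2 ▸ hL.2⟩

/-- With closed sublevel sets, the sublevel sets of the gap are compact of volume `O(R^n)`. -/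
theorem exists_sublevel_bound (hW : IsOpen W) (hc : Convex ℝ W) (hu : ContDiffOn ℝ ∞ u W)
    (hpos : ∀ x ∈ W, (hess u x).PosDef) (hcl : ∀ R, IsClosed {x | x ∈ W ∧ u x ≤ R})
    (h0 : x₀ ∈ W) :
    ∃ C : ℝ, 0 ≤ C ∧ ∀ R : ℝ, 0 ≤ R →
      IsCompact {x | x ∈ W ∧ tangentGap u x₀ x ≤ R} ∧
      volume {x | x ∈ W ∧ tangentGap u x₀ x ≤ R} ≤ ENNReal.ofReal (C * (1 + R) ^ n) := by
  obtain ⟨a, b, ha, hb, hgrow⟩ := exists_linear_growth hW hc hu hpos h0
  refine ⟨(2 * (1 + b) / a) ^ n, by positivity, fun R hR => ?_⟩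
  set ρ := (1 + b) / a * (1 + R) with hρ
  have hρ0 : 0 ≤ ρ := by positivity
  have hsub : {x | x ∈ W ∧ tangentGap u x₀ x ≤ R} ⊆ Metric.closedBall x₀ ρ := by
    intro x hx
    rw [Metric.mem_closedBall, dist_eq_norm, hρ, div_mul_eq_mul_div, le_div_iff₀ ha]
    have := hgrow x hx.1
    nlinarith [hx.2, mul_nonneg hb hR]
  set R' := R + u x₀ + ‖fderiv ℝ u x₀‖ * ρ
  have hclosed : IsClosed {x | x ∈ W ∧ tangentGap u x₀ x ≤ R} := by
    have e : {x | x ∈ W ∧ tangentGap u x₀ x ≤ R}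
        = {x | x ∈ W ∧ u x ≤ R'} ∩ tangentGap u x₀ ⁻¹' Iic R := by
      ext x
      refine ⟨fun hx => ⟨⟨hx.1, ?_⟩, hx.2⟩, fun hx => ⟨hx.1.1, hx.2⟩⟩
      have h1 := hsub hx
      rw [Metric.mem_closedBall, dist_eq_norm] at h1
      have h2 := (le_abs_self _).trans (((fderiv ℝ u x₀).le_opNorm (x - x₀)).trans
        (mul_le_mul_of_nonneg_left h1 (norm_nonneg _)))
      have h3 := hx.2
      simp only [tangentGap] at h3
      linarith
    rw [e]
    exact ((contDiffOn_tangentGap hu).continuousOn.mono fun x hx => hx.1).preimage_isClosed_of_isClosed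
      (hcl R') isClosed_Iic
  refine ⟨Metric.isCompact_of_isClosed_isBounded hclosed (Metric.isBounded_closedBall.subset hsub),
    (measure_mono hsub).trans_eq ?_⟩
  rw [Real.volume_pi_closedBall x₀ hρ0, Fintype.card_fin, hρ, ← mul_assoc, mul_div_assoc', mul_pow]

end Vale.Agent.P252.Rigidity
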