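import Vale.Agent.P252.Rigidity.JCP
import Vale.Agent.P252.Rigidity.Sublevel

/-!
# From `det D²u = const` to an entire quadratic polynomial
-/

namespace Vale.Agent.P252.Rigidity

open scoped ContDiff Topology Matrix
open Filter Set

noncomputable section

variable {n : ℕ} {W : Set (Fin n → ℝ)} {u : (Fin n → ℝ) → ℝ}

/-- On an open convex set, a locally uniformly convex function with closed sublevel sets and
constant Hessian determinant is an entire quadratic polynomial. -/
theorem entire_quadratic_of_det_const (hn : 1 ≤ n) (hW : IsOpen W) (hne : W.Nonempty)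
    (hc : Convex ℝ W) (hu : ContDiffOn ℝ ∞ u W) (hpos : ∀ x ∈ W, (hess u x).PosDef)
    (hcl : ∀ R, IsClosed {x | x ∈ W ∧ u x ≤ R}) {d : ℝ} (hdet : ∀ x ∈ W, (hess u x).det = d) :
    W = Set.univ ∧ IsQuadraticPoly u := by
  obtain ⟨x₀, h0⟩ := hne
  obtain ⟨C, -, hC⟩ := exists_sublevel_bound hW hc hu hpos hcl h0
  set p : Fin n → ℝ := fun i => fderiv ℝ u x₀ (Pi.single i 1)
  have hlin : ∀ x : Fin n → ℝ, fderiv ℝ u x₀ x = ∑ i, p i * x i := fun x => by
    conv_lhs => rw [pi_eq_sum_univ' x, map_sum]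
    exact Finset.sum_congr rfl fun i _ => by rw [map_smul, smul_eq_mul, mul_comm]
  have hgap : ∀ x, tangentGap u x₀ x =
      u x - ((∑ i, p i * x i) + (u x₀ - fderiv ℝ u x₀ x₀)) := fun x => by
    simp only [tangentGap, hlin, Pi.sub_apply, mul_sub, Finset.sum_sub_distrib]
    ring
  have hge : ∀ y ∈ W, (∑ i, p i * y i) + (u x₀ - fderiv ℝ u x₀ x₀) ≤ u y := fun y hy => by
    have := gap_nonneg hW hc hu hpos h0 hy
    rw [hgap] at this
    linarith
  have hcomp : ∀ R : ℝ,
      IsCompact {y | y ∈ W ∧ u y ≤ (∑ i, p i * y i) + (u x₀ - fderiv ℝ u x₀ x₀) + R} := by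
    intro R
    rcases le_or_gt 0 R with hR | hR
    · convert (hC R hR).1 using 2
      ext y
      rw [hgap, sub_le_iff_le_add']
    · have he : {y | y ∈ W ∧ u y ≤ (∑ i, p i * y i) + (u x₀ - fderiv ℝ u x₀ x₀) + R} = ∅ :=
        Set.eq_empty_iff_forall_notMem.2 fun y hy => by
          obtain ⟨hyW, hyle⟩ := hy
          linarith [hge y hyW]
      rw [he]
      exact isCompact_empty
  obtain ⟨A, b, c, hq⟩ :=
    quadratic_of_det_const hn hW hc.isPreconnected hu hpos hdet p _ hge hcomp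
  have hQ : Continuous fun y : Fin n → ℝ => (∑ i, ∑ j, A i j * y i * y j) + (∑ i, b i * y i) + c := by
    fun_prop
  have hclosed : IsClosed W := by
    refine isClosed_of_closure_subset fun z hz => ?_
    set R := (∑ i, ∑ j, A i j * z i * z j) + (∑ i, b i * z i) + c + 1 with hR
    have hev : ∀ᶠ y in 𝓝[W] z, y ∈ {x | x ∈ W ∧ u x ≤ R} := by
      filter_upwards [self_mem_nhdsWithin,
        (hQ.continuousAt.eventually (gt_mem_nhds (lt_add_one _))).filter_mono nhdsWithin_le_nhds]
        with y hy hlt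
      exact ⟨hy, by rw [hq y hy, hR]; exact hlt.le⟩
    have : (𝓝[W] z).NeBot := mem_closure_iff_nhdsWithin_neBot.1 hz
    exact ((hcl R).mem_of_tendsto (tendsto_id.mono_left nhdsWithin_le_nhds) hev).1
  have huniv : W = Set.univ :=
    IsClopen.eq_univ ⟨hclosed, hW⟩ ⟨x₀, h0⟩
  exact ⟨huniv, A, b, c, fun x => hq x (huniv ▸ Set.mem_univ x)⟩

end

end Vale.Agent.P252.Rigidity
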