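import Vale.Agent.P252.Defs

/-!
# P252: integration by parts on an open set against a compactly supported function
-/

noncomputable section

namespace Vale.Agent.P252.Rigidity

open MeasureTheory Set Filter Topology
open scoped ContDiff

variable {n : ℕ} {W K : Set (Fin n → ℝ)} {f g : (Fin n → ℝ) → ℝ}

/-- A compactly supported partial derivative integrates to zero. -/
theorem integral_pd_eq_zero (hf : ContDiff ℝ 1 f) (hs : HasCompactSupport f) (i : Fin n) :
    ∫ x, pd i f x = 0 := by
  set v : Fin n → ℝ := Pi.single i 1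
  have h1 : Integrable (fun x => fderiv ℝ f x v) :=
    ((hf.continuous_fderiv one_ne_zero).clm_apply continuous_const).integrable_of_hasCompactSupport
      (hs.fderiv_apply ℝ v)
  have h := integral_mul_fderiv_eq_neg_fderiv_mul_of_integrable (𝕜 := ℝ) (v := v) (f := f)
    (g := fun _ => (1 : ℝ)) (μ := volume) (by simpa using h1) (by simp)
    (by simpa using hf.continuous.integrable_of_hasCompactSupport hs)
    (fun x _ => (hf.differentiable one_ne_zero) x) fun x _ => differentiableAt_const _
  simpa [pd, v] using h.symm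

/-- The extension by zero of a function supported in a compact part of the open set. -/
theorem contDiff_indicator (hW : IsOpen W) (hK : IsCompact K) (hKW : K ⊆ W)
    (hf : ContDiffOn ℝ 1 f W) (h0 : ∀ x ∈ W, x ∉ K → f x = 0) :
    ContDiff ℝ 1 (W.indicator f) := by
  refine contDiff_iff_contDiffAt.2 fun x => ?_
  by_cases hx : x ∈ W
  · exact (hf.contDiffAt (hW.mem_nhds hx)).congr_of_eventuallyEq
      (Filter.eventually_of_mem (hW.mem_nhds hx) fun y hy => Set.indicator_of_mem hy f)
  · refine (contDiffAt_const (c := (0 : ℝ))).congr_of_eventuallyEq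
      (Filter.eventually_of_mem (hK.isClosed.isOpen_compl.mem_nhds fun h => hx (hKW h))
        fun y hy => ?_)
    by_cases hyW : y ∈ W
    · rw [Set.indicator_of_mem hyW, h0 y hyW hy]
    · rw [Set.indicator_of_notMem hyW]

/-- Outside the compact support the derivative vanishes. -/
theorem pd_eq_zero_of_notMem (hW : IsOpen W) (hK : IsCompact K) (h0 : ∀ x ∈ W, x ∉ K → f x = 0)
    (i : Fin n) {x : Fin n → ℝ} (hx : x ∈ W) (hxK : x ∉ K) : pd i f x = 0 := by
  have h : f =ᶠ[𝓝 x] fun _ => (0 : ℝ) :=
    Filter.eventually_of_mem ((hW.inter hK.isClosed.isOpen_compl).mem_nhds ⟨hx, hxK⟩)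
      fun y hy => h0 y hy.1 hy.2
  rw [pd, h.fderiv_eq]
  simp

/-- The local form: the function vanishes outside a compact subset of the open set. -/
theorem setIntegral_pd_eq_zero (hW : IsOpen W) (hK : IsCompact K) (hKW : K ⊆ W)
    (hf : ContDiffOn ℝ 1 f W) (h0 : ∀ x ∈ W, x ∉ K → f x = 0) (i : Fin n) :
    ∫ x in W, pd i f x = 0 := by
  have hF := contDiff_indicator hW hK hKW hf h0
  have hsupp : ∀ x, x ∉ K → W.indicator f x = 0 := fun x hx => by
    by_cases hxW : x ∈ W
    · rw [Set.indicator_of_mem hxW, h0 x hxW hx]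
    · rw [Set.indicator_of_notMem hxW]
  have hs : HasCompactSupport (W.indicator f) := HasCompactSupport.intro hK hsupp
  have e : ∫ x in W, pd i f x = ∫ x in W, pd i (W.indicator f) x := by
    refine setIntegral_congr_fun hW.measurableSet fun x hx => ?_
    have hf' : W.indicator f =ᶠ[𝓝 x] f :=
      Filter.eventually_of_mem (hW.mem_nhds hx) fun y hy => Set.indicator_of_mem hy f
    rw [pd, pd, hf'.fderiv_eq]
  rw [e, setIntegral_eq_integral_of_forall_compl_eq_zero fun x hx => ?_,
    integral_pd_eq_zero hF hs i]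
  exact pd_eq_zero_of_notMem isOpen_univ hK (fun y _ hy => hsupp y hy) i (mem_univ x)
    fun h => hx (hKW h)

/-- Continuous functions vanishing outside a compact subset are integrable on the open set. -/
theorem integrableOn_of_vanish (hW : IsOpen W) (hK : IsCompact K) (hKW : K ⊆ W)
    (hf : ContinuousOn f W) (h0 : ∀ x ∈ W, x ∉ K → f x = 0) : IntegrableOn f W :=
  ((hf.mono hKW).integrableOn_compact hK).of_forall_sdiff_eq_zero hW.measurableSet
    fun x hx => h0 x hx.1 hx.2

theorem continuousOn_pd (hW : IsOpen W) (hf : ContDiffOn ℝ 1 f W) (i : Fin n) :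
    ContinuousOn (fun x => pd i f x) W :=
  (hf.continuousOn_fderiv_of_isOpen hW le_rfl).clm_apply continuousOn_const

/-- Integration by parts, one factor supported in a compact subset. -/
theorem setIntegral_mul_pd (hW : IsOpen W) (hK : IsCompact K) (hKW : K ⊆ W)
    (hf : ContDiffOn ℝ 1 f W) (hg : ContDiffOn ℝ 1 g W) (h0 : ∀ x ∈ W, x ∉ K → f x = 0)
    (i : Fin n) : ∫ x in W, f x * pd i g x = -∫ x in W, pd i f x * g x := by
  have hprod : ∀ x ∈ W, pd i (fun y => f y * g y) x = pd i f x * g x + f x * pd i g x := by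
    intro x hx
    have df := (hf.differentiableOn one_ne_zero x hx).differentiableAt (hW.mem_nhds hx)
    have dg := (hg.differentiableOn one_ne_zero x hx).differentiableAt (hW.mem_nhds hx)
    simp only [pd]
    rw [fderiv_fun_mul df dg]
    simp [mul_comm, add_comm]
  have h := setIntegral_pd_eq_zero hW hK hKW (hf.mul hg)
    (fun x hx hxK => by rw [h0 x hx hxK, zero_mul]) i
  rw [setIntegral_congr_fun hW.measurableSet hprod, integral_add] at h
  · linarith
  · exact integrableOn_of_vanish hW hK hKW ((continuousOn_pd hW hf i).mul hg.continuousOn)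
      fun x hx hxK => by rw [pd_eq_zero_of_notMem hW hK h0 i hx hxK, zero_mul]
  · exact integrableOn_of_vanish hW hK hKW (hf.continuousOn.mul (continuousOn_pd hW hg i))
      fun x hx hxK => by rw [h0 x hx hxK, zero_mul]

/-- The divergence of a compactly supported field integrates to zero. -/
theorem setIntegral_div_eq_zero (hW : IsOpen W) (hK : IsCompact K) (hKW : K ⊆ W)
    {V : Fin n → (Fin n → ℝ) → ℝ} (hV : ∀ i, ContDiffOn ℝ 1 (V i) W)
    (h0 : ∀ i, ∀ x ∈ W, x ∉ K → V i x = 0) : ∫ x in W, ∑ i, pd i (V i) x = 0 := by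
  rw [integral_finsetSum _ fun i _ => integrableOn_of_vanish hW hK hKW
    (continuousOn_pd hW (hV i) i) fun x hx hxK => pd_eq_zero_of_notMem hW hK (h0 i) i hx hxK]
  exact Finset.sum_eq_zero fun i _ => setIntegral_pd_eq_zero hW hK hKW (hV i) (h0 i) i

/-- The powers of the positive part are continuously differentiable from exponent two on. -/
theorem hasDerivAt_posPart_pow (a : ℕ) (t : ℝ) :
    HasDerivAt (fun s : ℝ => max s 0 ^ (a + 2)) ((a + 2 : ℕ) * max t 0 ^ (a + 1)) t := by
  rcases lt_trichotomy t 0 with h | rfl | h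
  · have he : (fun s : ℝ => max s 0 ^ (a + 2)) =ᶠ[𝓝 t] fun _ => (0 : ℝ) :=
      Filter.eventually_of_mem (Iio_mem_nhds h) fun s hs => by simp [max_eq_right (le_of_lt (show s < 0 from hs))]
    rw [max_eq_right h.le, zero_pow (by omega), mul_zero]
    exact (hasDerivAt_const t (0 : ℝ)).congr_of_eventuallyEq he
  · rw [max_self, zero_pow (by omega), mul_zero, hasDerivAt_iff_isLittleO_nhds_zero]
    simp only [zero_add, max_self, ne_eq, Nat.succ_ne_zero, not_false_eq_true, zero_pow, sub_zero,
      smul_zero]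
    refine (Asymptotics.IsBigO.of_bound 1 (Eventually.of_forall fun s => ?_)).trans_isLittleO
      (Asymptotics.isLittleO_pow_id (𝕜 := ℝ) (n := a + 2) (by omega))
    rw [one_mul, norm_pow, norm_pow]
    exact pow_le_pow_left₀ (norm_nonneg _) (by
      rw [Real.norm_eq_abs, Real.norm_eq_abs, abs_of_nonneg (le_max_right _ _)]
      exact max_le (le_abs_self s) (abs_nonneg s)) _
  · have he : (fun s : ℝ => max s 0 ^ (a + 2)) =ᶠ[𝓝 t] fun s => s ^ (a + 2) :=
      Filter.eventually_of_mem (Ioi_mem_nhds h) fun s hs => by simp [max_eq_left (le_of_lt (show 0 < s from hs))]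
    rw [max_eq_left h.le]
    exact (hasDerivAt_pow (a + 2) t).congr_of_eventuallyEq he

theorem contDiff_posPart_pow (a : ℕ) : ContDiff ℝ 1 fun s : ℝ => max s 0 ^ (a + 2) := by
  rw [contDiff_one_iff_deriv]
  refine ⟨fun t => (hasDerivAt_posPart_pow a t).differentiableAt, ?_⟩
  rw [show deriv (fun s : ℝ => max s 0 ^ (a + 2))
      = fun t => ((a + 2 : ℕ) : ℝ) * max t 0 ^ (a + 1) from
    funext fun t => (hasDerivAt_posPart_pow a t).deriv]
  fun_prop

end Vale.Agent.P252.Rigidity
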