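import Vale.Agent.P252.Rigidity.Calc
import Vale.Agent.P252.Rigidity.IntParts

/-!
# P252: the Piola identity and the divergence form of the affine maximal equation
-/

namespace Vale.Agent.P252

open scoped ContDiff Topology Matrix
open Finset Set MeasureTheory

noncomputable section

variable {n : ℕ} {Ω : Set (Fin n → ℝ)} {u f : (Fin n → ℝ) → ℝ} {x : Fin n → ℝ}

/-- The cofactor matrix `U^{ij}` of the Hessian. -/
def cofH (u : (Fin n → ℝ) → ℝ) (y : Fin n → ℝ) : Matrix (Fin n) (Fin n) ℝ :=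
  (hess u y).det • (hess u y)⁻¹

lemma cofH_apply (u : (Fin n → ℝ) → ℝ) (y : Fin n → ℝ) (i j : Fin n) :
    cofH u y i j = (hess u y).det * (hess u y)⁻¹ i j := rfl

lemma msm_cofH (hΩ : IsOpen Ω) (hu : Sm Ω u) (h0 : ∀ y ∈ Ω, (hess u y).det ≠ 0) :
    MSm Ω (cofH u) := fun a b =>
  (sm_det (msm_hess hΩ hu)).mul (msm_inv (msm_hess hΩ hu) h0 a b)

/-- The third derivatives are symmetric. -/
lemma mpd_hess_symm (hΩ : IsOpen Ω) (hu : Sm Ω u) (hx : x ∈ Ω) (i k l : Fin n) :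
    mpd i (hess u) x k l = mpd k (hess u) x i l ∧ mpd i (hess u) x k l = mpd i (hess u) x l k := by
  constructor
  · exact pd_comm hΩ (hu.pd hΩ l) hx i k
  · exact pd_congr_on hΩ hx (fun y hy => pd_comm hΩ hu hy k l) i

/-- The Piola identity: the rows of the cofactor matrix of a Hessian are divergence free. -/
theorem piola (hΩ : IsOpen Ω) (hu : Sm Ω u) (h0 : ∀ y ∈ Ω, (hess u y).det ≠ 0) (hx : x ∈ Ω)
    (j : Fin n) : ∑ i, pd i (fun y => cofH u y i j) x = 0 := by
  have hH := msm_hess hΩ hu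
  set A := (hess u x)⁻¹ with hA
  have hsym : ∀ a b, A a b = A b a := fun a b => by
    have h : Aᵀ = A := by rw [hA, Matrix.transpose_nonsing_inv, hess_symm hΩ hu hx]
    conv_lhs => rw [← h]
    rfl
  set T : Fin n → Fin n → Fin n → ℝ := fun i k l => mpd i (hess u) x k l with hT
  have hT1 : ∀ i k l, T i k l = T k i l := fun i k l => (mpd_hess_symm hΩ hu hx i k l).1
  have hT2 : ∀ i k l, T i k l = T i l k := fun i k l => (mpd_hess_symm hΩ hu hx i k l).2
  have e : ∀ i, pd i (fun y => cofH u y i j) x = (hess u x).det *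
      ((∑ k, ∑ l, A l k * T i k l) * A i j - ∑ k, ∑ l, A i k * T i k l * A l j) := by
    intro i
    simp only [cofH_apply]
    rw [pd_mul ((sm_det hH).differentiableAt hΩ hx) ((msm_inv hH h0 i j).differentiableAt hΩ hx),
      pd_det hΩ hH (h0 x hx) hx i]
    have hi : pd i (fun y => (hess u y)⁻¹ i j) x = mpd i (fun y => (hess u y)⁻¹) x i j := rfl
    rw [hi, mpd_inv hΩ hH h0 hx i, Matrix.neg_apply, ← hA]
    have h1 : (A * mpd i (hess u) x).trace = ∑ k, ∑ l, A l k * T i k l := by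
      rw [Matrix.trace, Finset.sum_comm]
      simp [Matrix.mul_apply, hT]
    have h2 : (A * mpd i (hess u) x * A) i j = ∑ k, ∑ l, A i k * T i k l * A l j := by
      simp only [Matrix.mul_apply, Finset.sum_mul, hT]
      exact Finset.sum_comm
    rw [h1, h2]
    ring
  simp only [e, ← Finset.mul_sum, Finset.sum_sub_distrib]
  refine mul_eq_zero_of_right _ (sub_eq_zero.2 ?_)
  simp only [Finset.sum_mul]
  calc ∑ i, ∑ k, ∑ l, A l k * T i k l * A i j
      = ∑ i, ∑ l, ∑ k, A l k * T i k l * A i j := Finset.sum_congr rfl fun i _ => Finset.sum_comm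
    _ = ∑ l, ∑ i, ∑ k, A l k * T i k l * A i j := Finset.sum_comm
    _ = ∑ l, ∑ k, ∑ i, A l k * T i k l * A i j := Finset.sum_congr rfl fun l _ => Finset.sum_comm
    _ = _ := by
      refine Finset.sum_congr rfl fun a _ => Finset.sum_congr rfl fun b _ =>
        Finset.sum_congr rfl fun c _ => ?_
      rw [hT1 c b a, hT2 b c a, hT1 b a c]

/-- The divergence of `U ∇f` is `∑ U^{ij} f_ij`. -/
theorem div_cofH (hΩ : IsOpen Ω) (hu : Sm Ω u) (h0 : ∀ y ∈ Ω, (hess u y).det ≠ 0)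
    (hf : Sm Ω f) (hx : x ∈ Ω) :
    ∑ i, pd i (fun y => ∑ j, cofH u y i j * pd j f y) x = ∑ i, ∑ j, cofH u x i j * hess f x i j := by
  have hc := msm_cofH hΩ hu h0
  have e : ∀ i, pd i (fun y => ∑ j, cofH u y i j * pd j f y) x
      = ∑ j, (pd i (fun y => cofH u y i j) x * pd j f x + cofH u x i j * hess f x i j) := by
    intro i
    rw [pd_sum fun j _ => ((hc i j).mul (hf.pd hΩ j)).differentiableAt hΩ hx]
    exact Finset.sum_congr rfl fun j _ =>
      pd_mul ((hc i j).differentiableAt hΩ hx) ((hf.pd hΩ j).differentiableAt hΩ hx) i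
  simp only [e, Finset.sum_add_distrib]
  rw [Finset.sum_comm]
  simp only [← Finset.sum_mul, piola hΩ hu h0 hx, zero_mul, Finset.sum_const_zero, zero_add]

/-- Green's identity: `∫ η ∑ U^{ij} f_ij = -∫ ∑ U^{ij} η_i f_j` for `η` supported in a compact
part of the open set. -/
theorem integral_cofH (hΩ : IsOpen Ω) (hu : Sm Ω u) (h0 : ∀ y ∈ Ω, (hess u y).det ≠ 0)
    (hf : Sm Ω f) {η : (Fin n → ℝ) → ℝ} (hη : ContDiffOn ℝ 1 η Ω) {K : Set (Fin n → ℝ)}
    (hK : IsCompact K) (hKΩ : K ⊆ Ω) (hηK : ∀ y ∈ Ω, y ∉ K → η y = 0) :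
    ∫ y in Ω, η y * (∑ i, ∑ j, cofH u y i j * hess f y i j)
      = -∫ y in Ω, ∑ i, pd i η y * (∑ j, cofH u y i j * pd j f y) := by
  set V : Fin n → (Fin n → ℝ) → ℝ := fun i y => ∑ j, cofH u y i j * pd j f y with hV
  have hVs : ∀ i, Sm Ω (V i) := fun i =>
    sm_sum _ fun j _ => (msm_cofH hΩ hu h0 i j).mul (hf.pd hΩ j)
  have h1 : ∀ i, ContDiffOn ℝ 1 (V i) Ω := fun i => (hVs i).of_le (by simp)
  have hint : ∀ g h : (Fin n → ℝ) → ℝ, ContinuousOn g Ω → ContinuousOn h Ω →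
      (∀ y ∈ Ω, y ∉ K → g y = 0) → IntegrableOn (fun y => g y * h y) Ω := fun g h hg hh hg0 =>
    Rigidity.integrableOn_of_vanish hΩ hK hKΩ (hg.mul hh)
      fun y hy hyK => by rw [hg0 y hy hyK, zero_mul]
  calc ∫ y in Ω, η y * (∑ i, ∑ j, cofH u y i j * hess f y i j)
      = ∫ y in Ω, ∑ i, η y * pd i (V i) y := by
        refine setIntegral_congr_fun hΩ.measurableSet fun y hy => ?_
        simp only [← Finset.mul_sum, hV]
        rw [div_cofH hΩ hu h0 hf hy]
    _ = ∑ i, ∫ y in Ω, η y * pd i (V i) y :=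
        integral_finsetSum _ fun i _ =>
          hint _ _ hη.continuousOn (Rigidity.continuousOn_pd hΩ (h1 i) i) hηK
    _ = ∑ i, -∫ y in Ω, pd i η y * V i y :=
        Finset.sum_congr rfl fun i _ => Rigidity.setIntegral_mul_pd hΩ hK hKΩ hη (h1 i) hηK i
    _ = _ := by
        rw [Finset.sum_neg_distrib, integral_finsetSum]
        exact fun i _ => hint _ _ (Rigidity.continuousOn_pd hΩ hη i) (hVs i).continuousOn
          fun y hy hyK => Rigidity.pd_eq_zero_of_notMem hΩ hK hηK i hy hyK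

/-- `w = (det D²u)^(-(n+1)/(n+2))` is smooth. -/
lemma sm_affineW (hΩ : IsOpen Ω) (hu : Sm Ω u) (hpos : ∀ y ∈ Ω, 0 < (hess u y).det) :
    Sm Ω (affineW u) :=
  (sm_det (msm_hess hΩ hu)).rpow_const_of_ne fun y hy => (hpos y hy).ne'

/-- The weak form of the affine maximal equation on an open set. -/
theorem weak_affineMaximal (hΩ : IsOpen Ω) (hu : Sm Ω u) (hpos : ∀ y ∈ Ω, 0 < (hess u y).det)
    (hAM : ∀ y ∈ Ω, ∑ i, ∑ j, (hess u y).det * (hess u y)⁻¹ i j * hess (affineW u) y i j = 0)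
    {η : (Fin n → ℝ) → ℝ} (hη : ContDiffOn ℝ 1 η Ω) {K : Set (Fin n → ℝ)} (hK : IsCompact K)
    (hKΩ : K ⊆ Ω) (hηK : ∀ y ∈ Ω, y ∉ K → η y = 0) :
    ∫ y in Ω, ∑ i, pd i η y * (∑ j, cofH u y i j * pd j (affineW u) y) = 0 := by
  have h := integral_cofH hΩ hu (fun y hy => (hpos y hy).ne') (sm_affineW hΩ hu hpos) hη hK hKΩ hηK
  rw [setIntegral_congr_fun hΩ.measurableSet (g := fun _ => (0 : ℝ)) fun y hy => by
    simp only [cofH_apply, hAM y hy, mul_zero]] at h
  simp only [integral_zero] at h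
  linarith

end

end Vale.Agent.P252
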