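import Vale.Agent.P252.Rigidity.Sublevel

/-!
# P252: a decaying sublevel integral forces the integrand to vanish
-/

noncomputable section

namespace Vale.Agent.P252.Rigidity

open MeasureTheory Set Filter Topology

variable {n : ℕ} {W : Set (Fin n → ℝ)} {v f : (Fin n → ℝ) → ℝ}

/-- If the integral over the sublevel set of level `θ R` is at most `C R^(-k) (1+R)^n` with
`n < k`, then the nonnegative integrand vanishes on the open set. -/
theorem eq_zero_of_decay (hW : IsOpen W) (hv : ContinuousOn v W) (hf : ContinuousOn f W)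
    (hnn : ∀ x ∈ W, 0 ≤ f x) (hcpt : ∀ R : ℝ, IsCompact {x | x ∈ W ∧ v x ≤ R}) {C θ : ℝ} {k : ℕ}
    (hθ : 0 < θ) (hk : n < k)
    (hdec : ∀ R : ℝ, 1 ≤ R → ∫ x in {x | x ∈ W ∧ v x ≤ θ * R}, f x ≤ C * (1 + R) ^ n / R ^ k) :
    ∀ x ∈ W, f x = 0 := by
  intro x₀ h0
  by_contra hne
  have hpos : 0 < f x₀ := lt_of_le_of_ne (hnn x₀ h0) (Ne.symm hne)
  obtain ⟨r, hr, hball⟩ := Metric.mem_nhds_iff.1 (Filter.inter_mem (Filter.inter_mem (hW.mem_nhds h0)
    ((hf.continuousAt (hW.mem_nhds h0)).eventually_const_le (half_lt_self hpos)))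
    ((hv.continuousAt (hW.mem_nhds h0)).eventually_le_const (lt_add_one (v x₀))))
  have hvol : 0 < (volume (Metric.ball x₀ r)).toReal :=
    ENNReal.toReal_pos (Metric.measure_ball_pos volume x₀ hr).ne' measure_ball_lt_top.ne
  set c := f x₀ / 2 * (volume (Metric.ball x₀ r)).toReal with hc
  have hc0 : 0 < c := by positivity
  have hbig : ∀ R : ℝ, (v x₀ + 1) / θ ≤ R → c ≤ ∫ x in {x | x ∈ W ∧ v x ≤ θ * R}, f x := by
    intro R hR
    rw [div_le_iff₀ hθ] at hR
    have hsub : Metric.ball x₀ r ⊆ {x | x ∈ W ∧ v x ≤ θ * R} := fun x hx =>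
      ⟨(hball hx).1.1, (hball hx).2.trans (by linarith)⟩
    have hint : IntegrableOn f {x | x ∈ W ∧ v x ≤ θ * R} :=
      (hf.mono fun x hx => hx.1).integrableOn_compact (hcpt _)
    refine le_trans ?_ (setIntegral_mono_set hint
      ((ae_restrict_mem (hcpt _).measurableSet).mono fun x hx => hnn x hx.1) hsub.eventuallyLE)
    have h := setIntegral_mono_on (μ := volume) (f := fun _ => f x₀ / 2)
      (integrableOn_const measure_ball_lt_top.ne) (hint.mono_set hsub) measurableSet_ball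
      fun x hx => (hball hx).1.2
    rw [setIntegral_const, smul_eq_mul] at h
    exact le_trans (le_of_eq (mul_comm _ _)) h
  have hlim : Tendsto (fun R : ℝ => C * (1 + R) ^ n / R ^ k) atTop (𝓝 0) := by
    refine squeeze_zero_norm' (a := fun R : ℝ => |C| * 2 ^ n * R⁻¹) ?_
      (by simpa using tendsto_inv_atTop_zero.const_mul (|C| * 2 ^ n))
    filter_upwards [eventually_ge_atTop (1 : ℝ)] with R hR
    rw [Real.norm_eq_abs, abs_div, abs_mul, abs_pow, abs_pow, abs_of_nonneg (by linarith : 0 ≤ 1 + R),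
      abs_of_nonneg (by linarith : 0 ≤ R), div_le_iff₀ (by positivity)]
    obtain ⟨j, rfl⟩ : ∃ j, k = n + 1 + j := ⟨k - (n + 1), by omega⟩
    calc |C| * (1 + R) ^ n ≤ |C| * ((2 * R) ^ n * R ^ j) := by
          gcongr
          exact le_trans (pow_le_pow_left₀ (by linarith) (by linarith) n)
            (le_mul_of_one_le_right (by positivity) (one_le_pow₀ hR))
      _ = |C| * 2 ^ n * R⁻¹ * R ^ (n + 1 + j) := by
          rw [mul_pow, pow_add, pow_succ]; field_simp
  obtain ⟨R, hR⟩ := ((eventually_ge_atTop (1 : ℝ)).and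
    ((eventually_ge_atTop ((v x₀ + 1) / θ)).and (hlim.eventually_lt_const hc0))).exists
  linarith [hdec R hR.1, hbig R hR.2.1, hR.2.2]

end Vale.Agent.P252.Rigidity
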