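import Vale.Agent.P252.Rigidity.Metric

/-!
# The theorem of Jörgens, Calabi and Pogorelov

A solution of `det D²u = const` with compact sublevel sets (after subtracting an affine function)
on a connected open set is a quadratic polynomial. The proof uses only the maximum principle:
`qZ (R - u)^(2n)` bounds `qZ` by `C R`, then Calabi's inequality bounds `qP` by `C / R`.
-/

namespace Vale.Agent.P252

open scoped ContDiff Topology Matrix
open Finset Matrix

noncomputable section

variable {n : ℕ} {Ω : Set (Fin n → ℝ)} {u : (Fin n → ℝ) → ℝ} {x : Fin n → ℝ}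

/-! ### Linear changes of variables -/

lemma exists_normalizer {H : Matrix (Fin n) (Fin n) ℝ} (hH : H.PosDef) :
    ∃ B : Matrix (Fin n) (Fin n) ℝ, Bᵀ * H * B = 1 := by
  set U : Matrix (Fin n) (Fin n) ℝ := (hH.isHermitian.eigenvectorUnitary : Matrix (Fin n) (Fin n) ℝ)
  have hUU : Uᵀ * U = 1 := by
    have h := Unitary.coe_star_mul_self hH.isHermitian.eigenvectorUnitary
    simpa [U, Matrix.star_eq_conjTranspose, Matrix.conjTranspose_eq_transpose_of_trivial] using h
  have hH' : H = U * diagonal hH.isHermitian.eigenvalues * Uᵀ := by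
    have h := hH.isHermitian.spectral_theorem
    simpa [U, Unitary.conjStarAlgAut_apply, Matrix.star_eq_conjTranspose,
      Matrix.conjTranspose_eq_transpose_of_trivial] using h
  set d : Fin n → ℝ := fun i => (Real.sqrt (hH.isHermitian.eigenvalues i))⁻¹
  refine ⟨U * diagonal d, ?_⟩
  rw [hH', transpose_mul, diagonal_transpose]
  calc diagonal d * Uᵀ * (U * diagonal hH.isHermitian.eigenvalues * Uᵀ) * (U * diagonal d)
      = diagonal d * (Uᵀ * U) * diagonal hH.isHermitian.eigenvalues * (Uᵀ * U) * diagonal d := by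
        simp only [mul_assoc]
    _ = 1 := by
        rw [hUU, mul_one, mul_one, diagonal_mul_diagonal, diagonal_mul_diagonal, ← diagonal_one]
        congr 1
        funext i
        have := hH.eigenvalues_pos i
        simp only [d]
        field_simp
        rw [Real.sq_sqrt this.le]

variable {B : Matrix (Fin n) (Fin n) ℝ} {x₀ : Fin n → ℝ}

/-- The function in the new coordinates. -/
def pull (B : Matrix (Fin n) (Fin n) ℝ) (x₀ : Fin n → ℝ) (f : (Fin n → ℝ) → ℝ) :
    (Fin n → ℝ) → ℝ := fun z => f (affMap B x₀ z)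

lemma affMap_zero (B : Matrix (Fin n) (Fin n) ℝ) (x₀ : Fin n → ℝ) : affMap B x₀ 0 = x₀ := by
  funext a
  simp [affMap]

lemma sm_pull {f : (Fin n → ℝ) → ℝ} (hf : Sm Ω f) :
    Sm (affMap B x₀ ⁻¹' Ω) (pull B x₀ f) :=
  ContDiffOn.comp hf (contDiff_affMap B x₀).contDiffOn fun _ hz => hz

lemma isOpen_pull (hΩ : IsOpen Ω) : IsOpen (affMap B x₀ ⁻¹' Ω) :=
  hΩ.preimage (contDiff_affMap B x₀).continuous

lemma hess_pull (hΩ : IsOpen Ω) {f : (Fin n → ℝ) → ℝ} (hf : Sm Ω f) {z : Fin n → ℝ}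
    (hz : affMap B x₀ z ∈ Ω) : hess (pull B x₀ f) z = Bᵀ * hess f (affMap B x₀ z) * B := by
  ext i j
  have h1 : ∀ y ∈ affMap B x₀ ⁻¹' Ω, pd j (pull B x₀ f) y =
      (fun w => ∑ b, B b j * pull B x₀ (pd b f) w) y := fun y hy =>
    pd_comp_affMap B x₀ (hf.differentiableAt hΩ hy) j
  show pd i (pd j (pull B x₀ f)) z = _
  rw [pd_congr_on (isOpen_pull hΩ) hz h1, pd_sum (fun b _ =>
    ((sm_pull (hf.pd hΩ b)).differentiableAt (isOpen_pull hΩ) hz).const_mul (B b j))]
  simp only [Matrix.mul_apply, Matrix.transpose_apply, sum_mul]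
  refine sum_congr rfl fun b _ => ?_
  rw [pd_mul (differentiableAt_const _) ((sm_pull (hf.pd hΩ b)).differentiableAt (isOpen_pull hΩ) hz),
    pd_const, zero_mul, zero_add]
  show B b j * pd i (fun w => pd b f (affMap B x₀ w)) z = _
  rw [pd_comp_affMap B x₀ ((hf.pd hΩ b).differentiableAt hΩ hz), mul_sum]
  exact sum_congr rfl fun a _ => by
    show B b j * (B a i * pd a (pd b f) _) = B a i * pd a (pd b f) _ * B b j
    ring

/-- The determinant is preserved by a normalising change of variables. -/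
structure Normal (B : Matrix (Fin n) (Fin n) ℝ) : Prop where
  det_sq : B.det * B.det = 1

lemma Normal.isUnit (hB : Normal B) : IsUnit B.det := IsUnit.of_mul_eq_one _ hB.det_sq

namespace MA

variable (h : MA Ω u)
include h

lemma normal_of (hx : x₀ ∈ Ω) (hB : Bᵀ * hess u x₀ * B = 1) : Normal B := by
  refine ⟨?_⟩
  have := congrArg Matrix.det hB
  simpa [h.det_eq x₀ hx] using this

variable (hB : Normal B)
include hB

lemma ma_pull : MA (affMap B x₀ ⁻¹' Ω) (pull B x₀ u) where
  isOpen := isOpen_pull h.isOpen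
  sm := sm_pull h.sm
  det_eq z hz := by
    rw [hess_pull h.isOpen h.sm hz, det_mul, det_mul, det_transpose, h.det_eq _ hz, mul_one,
      hB.det_sq]
  pos z hz := by
    rw [hess_pull h.isOpen h.sm hz, ← Matrix.conjTranspose_eq_transpose_of_trivial]
    exact (h.pos _ hz).conjTranspose_mul_mul_same
      (Matrix.mulVec_injective_iff_isUnit.2 ((Matrix.isUnit_iff_isUnit_det _).2 hB.isUnit))

variable {z : Fin n → ℝ} (hz : affMap B x₀ z ∈ Ω)
include hz

lemma hinv_pull :
    hinv (pull B x₀ u) z = B⁻¹ * hinv u (affMap B x₀ z) * B⁻¹ᵀ := by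
  rw [hinv, hess_pull h.isOpen h.sm hz, Matrix.mul_inv_rev, Matrix.mul_inv_rev,
    ← Matrix.transpose_nonsing_inv, hinv, mul_assoc]

lemma mh_pull (k : Fin n) :
    mh (pull B x₀ u) k z = Bᵀ * (∑ a, B a k • mh u a (affMap B x₀ z)) * B := by
  ext i j
  have h1 : ∀ y ∈ affMap B x₀ ⁻¹' Ω, hess (pull B x₀ u) y i j =
      (fun w => ∑ a, ∑ b, B a i * B b j * pull B x₀ (fun v => hess u v a b) w) y := fun y hy => by
    rw [hess_pull h.isOpen h.sm hy]
    simp only [Matrix.mul_apply, Matrix.transpose_apply, sum_mul, pull]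
    rw [sum_comm]
    exact sum_congr rfl fun a _ => sum_congr rfl fun b _ => by ring
  have hs : ∀ a b, Sm (affMap B x₀ ⁻¹' Ω) fun w =>
      B a i * B b j * pull B x₀ (fun v => hess u v a b) w := fun a b =>
    (sm_const _).mul (sm_pull (h.sm.hess h.isOpen a b))
  show pd k (fun y => hess (pull B x₀ u) y i j) z = _
  rw [pd_congr_on (isOpen_pull h.isOpen) hz h1,
    pd_sum (fun a _ => (sm_sum univ fun b _ => hs a b).differentiableAt (isOpen_pull h.isOpen) hz)]
  simp only [Matrix.mul_apply, Matrix.transpose_apply, Matrix.sum_apply, Matrix.smul_apply,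
    smul_eq_mul, sum_mul]
  rw [sum_comm (f := fun b a => B a i * (∑ c, B c k * mh u c (affMap B x₀ z) a b) * B b j)]
  refine sum_congr rfl fun a _ => ?_
  rw [pd_sum (fun b _ => (hs a b).differentiableAt (isOpen_pull h.isOpen) hz)]
  refine sum_congr rfl fun b _ => ?_
  rw [pd_mul (differentiableAt_const _)
    ((sm_pull (h.sm.hess h.isOpen a b)).differentiableAt (isOpen_pull h.isOpen) hz), pd_const,
    zero_mul, zero_add]
  show B a i * B b j * pd k (fun w => hess u (affMap B x₀ w) a b) z = _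
  rw [pd_comp_affMap (f := fun v => hess u v a b) B x₀
    ((h.sm.hess h.isOpen a b).differentiableAt h.isOpen hz)]
  show B a i * B b j * (∑ c, B c k * mh u c (affMap B x₀ z) a b) = _
  ring

lemma qP_pull : qP (pull B x₀ u) z = qP u (affMap B x₀ z) := by
  set y := affMap B x₀ z
  have hu : IsUnit B.det := hB.isUnit
  have hR : ∀ k, rk (pull B x₀ u) k z = ∑ a, B a k • (B⁻¹ * rk u a y * B) := fun k => by
    rw [rk, h.hinv_pull hB hz, h.mh_pull hB hz, Matrix.mul_sum, Matrix.sum_mul, Matrix.mul_sum]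
    refine sum_congr rfl fun a _ => ?_
    simp only [Matrix.mul_smul, Matrix.smul_mul, rk]
    congr 1
    have e : B⁻¹ᵀ * Bᵀ = 1 := by rw [← transpose_mul, mul_nonsing_inv _ hu, transpose_one]
    calc B⁻¹ * hinv u y * B⁻¹ᵀ * (Bᵀ * mh u a y * B)
        = B⁻¹ * hinv u y * (B⁻¹ᵀ * Bᵀ) * mh u a y * B := by simp only [mul_assoc]
      _ = B⁻¹ * (hinv u y * mh u a y) * B := by rw [e, mul_one]; simp only [mul_assoc]
  have htau : ∀ k l, tau (pull B x₀ u) k l z = ∑ a, ∑ b, B a k * B b l * tau u a b y := by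
    intro k l
    simp only [tau, hR, Matrix.sum_mul, Matrix.mul_sum, Matrix.smul_mul, Matrix.mul_smul,
      trace_sum, trace_smul, smul_eq_mul, mul_sum]
    rw [sum_comm]
    refine sum_congr rfl fun a _ => sum_congr rfl fun b _ => ?_
    rw [← mul_assoc, mul_comm (B b l)]
    congr 1
    calc (B⁻¹ * rk u a y * B * (B⁻¹ * rk u b y * B)).trace
          = (B⁻¹ * (rk u a y * (B * B⁻¹) * rk u b y * B)).trace := by simp only [mul_assoc]
        _ = _ := by
          rw [mul_nonsing_inv _ hu, mul_one, trace_mul_comm, mul_assoc _ B B⁻¹,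
            mul_nonsing_inv _ hu, mul_one]
  have hcon : ∀ a b, ∑ k, ∑ l, hinv (pull B x₀ u) z k l * (B a k * B b l) = hinv u y a b := by
    intro a b
    have e : B * hinv (pull B x₀ u) z * Bᵀ = hinv u y := by
      have e' : B⁻¹ᵀ * Bᵀ = 1 := by rw [← transpose_mul, mul_nonsing_inv _ hu, transpose_one]
      rw [h.hinv_pull hB hz]
      calc B * (B⁻¹ * hinv u y * B⁻¹ᵀ) * Bᵀ = (B * B⁻¹) * hinv u y * (B⁻¹ᵀ * Bᵀ) := by
            simp only [mul_assoc]
        _ = _ := by rw [mul_nonsing_inv _ hu, e', one_mul, mul_one]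
    conv_rhs => rw [← e]
    simp only [Matrix.mul_apply, Matrix.transpose_apply, sum_mul]
    rw [sum_comm]
    exact sum_congr rfl fun l _ => sum_congr rfl fun k _ => by ring
  simp only [qP, htau, mul_sum]
  rw [sum4_reindex ⟨fun p => (p.2.2.1, p.2.2.2, p.1, p.2.1), fun p => (p.2.2.1, p.2.2.2, p.1, p.2.1),
    fun _ => rfl, fun _ => rfl⟩]
  simp only [Equiv.coe_fn_mk]
  refine sum_congr rfl fun a _ => sum_congr rfl fun b _ => ?_
  rw [← hcon a b, sum_mul]
  refine sum_congr rfl fun k _ => ?_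
  rw [sum_mul]
  exact sum_congr rfl fun l _ => by ring

lemma qZ_pull : qZ (pull B x₀ u) z = qZ u (affMap B x₀ z) := by
  set y := affMap B x₀ z
  have hu : IsUnit B.det := hB.isUnit
  have hd : ∀ k, pd k (pull B x₀ u) z = ∑ a, B a k * pd a u y := fun k =>
    pd_comp_affMap B x₀ (h.sm.differentiableAt h.isOpen hz) k
  have hcon : ∀ a b, ∑ k, ∑ l, hinv (pull B x₀ u) z k l * (B a k * B b l) = hinv u y a b := by
    intro a b
    have e : B * hinv (pull B x₀ u) z * Bᵀ = hinv u y := by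
      have e' : B⁻¹ᵀ * Bᵀ = 1 := by rw [← transpose_mul, mul_nonsing_inv _ hu, transpose_one]
      rw [h.hinv_pull hB hz]
      calc B * (B⁻¹ * hinv u y * B⁻¹ᵀ) * Bᵀ = (B * B⁻¹) * hinv u y * (B⁻¹ᵀ * Bᵀ) := by
            simp only [mul_assoc]
        _ = _ := by rw [mul_nonsing_inv _ hu, e', one_mul, mul_one]
    conv_rhs => rw [← e]
    simp only [Matrix.mul_apply, Matrix.transpose_apply, sum_mul]
    rw [sum_comm]
    exact sum_congr rfl fun l _ => sum_congr rfl fun k _ => by ring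
  have hmul : ∀ k l, (∑ a, B a k * pd a u y) * (∑ b, B b l * pd b u y) =
      ∑ a, ∑ b, B a k * B b l * (pd a u y * pd b u y) := fun k l => by
    rw [sum_mul_sum]
    exact sum_congr rfl fun a _ => sum_congr rfl fun b _ => by ring
  simp only [qZ, hd, hmul, mul_sum]
  rw [sum4_reindex ⟨fun p => (p.2.2.1, p.2.2.2, p.1, p.2.1), fun p => (p.2.2.1, p.2.2.2, p.1, p.2.1),
    fun _ => rfl, fun _ => rfl⟩]
  simp only [Equiv.coe_fn_mk]
  refine sum_congr rfl fun a _ => sum_congr rfl fun b _ => ?_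
  rw [← hcon a b, sum_mul]
  refine sum_congr rfl fun k _ => ?_
  rw [sum_mul]
  exact sum_congr rfl fun l _ => by ring

end MA

/-! ### The maximum principle -/

/-- A symmetric trace free matrix with eigenvalue `lam` has large norm. -/
lemma frob_bound {W : Matrix (Fin n) (Fin n) ℝ} (hW : Wᵀ = W) (htr : W.trace = 0) {v : Fin n → ℝ}
    {lam : ℝ} (hv : 0 < v ⬝ᵥ v) (hlam : W *ᵥ v = lam • v) :
    (n : ℝ) * lam ^ 2 ≤ ((n : ℝ) - 1) * (W * W).trace := by
  set e : Matrix (Fin n) (Fin n) ℝ := (v ⬝ᵥ v)⁻¹ • vecMulVec v v with he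
  have het : eᵀ = e := by rw [he, transpose_smul, transpose_vecMulVec]
  have h1 : e.trace = 1 := by
    rw [he, trace_smul, trace_vecMulVec, smul_eq_mul, inv_mul_cancel₀ hv.ne']
  have hWe : W * e = lam • e := by
    rw [he, Matrix.mul_smul, mul_vecMulVec, hlam, smul_comm, smul_vecMulVec]
  have h2 : (W * e).trace = lam := by rw [hWe, trace_smul, h1, smul_eq_mul, mul_one]
  have h3 : (e * e).trace = 1 := by
    rw [he, Matrix.smul_mul, Matrix.mul_smul, trace_smul, trace_smul, vecMulVec_mul_vecMulVec,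
      trace_vecMulVec, dotProduct_smul, smul_eq_mul, smul_eq_mul, smul_eq_mul]
    field_simp
  rcases lt_trichotomy n 1 with hn | rfl | hn
  · obtain rfl : n = 0 := by omega
    simp at hv
  · have h0 : W 0 0 = 0 := by simpa [Matrix.trace] using htr
    have : lam * v 0 = 0 := by
      have := congrFun hlam 0
      simpa [Matrix.mulVec, dotProduct, h0] using this.symm
    have hv0 : v 0 ≠ 0 := fun h => by simp [dotProduct, h] at hv
    simp [(mul_eq_zero.1 this).resolve_right hv0]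
  have hn1 : (0 : ℝ) < (n : ℝ) - 1 := by
    have : (1 : ℝ) < n := by exact_mod_cast hn
    linarith
  set X : Matrix (Fin n) (Fin n) ℝ :=
    ((n : ℝ) - 1) • W - lam • ((n : ℝ) • e - 1) with hX
  have hXt : Xᵀ = X := by
    rw [hX, transpose_sub, transpose_smul, transpose_smul, transpose_sub, transpose_smul, hW, het,
      transpose_one]
  have hpos := trace_sq_nonneg hXt
  have h2' : (e * W).trace = lam := by rw [trace_mul_comm, h2]
  have key : (X * X).trace =
      ((n : ℝ) - 1) * (((n : ℝ) - 1) * (W * W).trace - n * lam ^ 2) := by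
    simp only [hX, sub_mul, mul_sub, Matrix.smul_mul, Matrix.mul_smul, trace_sub, trace_smul,
      smul_eq_mul, one_mul, mul_one, h1, h2, h2', h3, htr, trace_one, Fintype.card_fin]
    ring
  rw [key] at hpos
  nlinarith [(mul_nonneg_iff_of_pos_left hn1).1 hpos]

namespace MA

variable (h : MA Ω u)
include h

/-- The test at an interior maximum of `f (R - u)^k`, at a point with `D²u = 1`. -/
lemma max_test (hx : x ∈ Ω) (hI : hess u x = 1) {f : (Fin n → ℝ) → ℝ} (hf : Sm Ω f) {R : ℝ}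
    (hs : 0 < R - u x) {k : ℕ} (hk : 2 ≤ k)
    (hmax : IsLocalMax (fun y => f y * (R - u y) ^ k) x) :
    (∀ m, (R - u x) * pd m f x = k * f x * pd m u x) ∧
      (R - u x) ^ 2 * lap f x ≤
        ((k : ℝ) ^ 2 + k) * f x * ∑ m, pd m u x ^ 2 + k * n * (R - u x) * f x := by
  obtain ⟨j, rfl⟩ : ∃ j, k = j + 2 := ⟨k - 2, by omega⟩
  have hΩ := h.isOpen
  set S : (Fin n → ℝ) → ℝ := fun y => R - u y with hS
  have hSs : Sm Ω S := (sm_const R).sub h.sm
  have hSp : ∀ p : ℕ, Sm Ω fun y => S y ^ p := fun p => hSs.pow p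
  have hdS : ∀ y ∈ Ω, ∀ m, pd m S y = -pd m u y := fun y hy m => by
    rw [hS, pd_sub (differentiableAt_const _) (h.sm.differentiableAt hΩ hy), pd_const, zero_sub]
  have hdp : ∀ (p : ℕ) (y) , y ∈ Ω → ∀ m, pd m (fun z => S z ^ (p + 1)) y =
      -((p : ℝ) + 1) * S y ^ p * pd m u y := fun p y hy m => by
    rw [pd_pow (hSs.differentiableAt hΩ hy), hdS y hy]
    push_cast
    ring
  have hF : Sm Ω fun y => f y * S y ^ (j + 2) := hf.mul (hSp _)
  have hd := fun m => pd_of_isLocalMax hΩ hF hx hmax m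
  have hfirst : ∀ m, S x * pd m f x = ((j + 2 : ℕ) : ℝ) * f x * pd m u x := fun m => by
    have h1 := (hd m).1
    rw [pd_mul (hf.differentiableAt hΩ hx) ((hSp _).differentiableAt hΩ hx), hdp (j + 1) x hx] at h1
    have h2 : S x ^ (j + 1) * (S x * pd m f x - ((j + 2 : ℕ) : ℝ) * f x * pd m u x) = 0 := by
      rw [← h1]; push_cast; ring
    exact sub_eq_zero.1 ((mul_eq_zero.1 h2).resolve_left (pow_ne_zero _ hs.ne'))
  refine ⟨hfirst, ?_⟩
  have hsec : ∀ m, S x ^ 2 * pd m (pd m f) x + f x *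
      (-(((j + 2 : ℕ) : ℝ) ^ 2 + (j + 2 : ℕ)) * pd m u x ^ 2 - ((j + 2 : ℕ) : ℝ) * S x *
        pd m (pd m u) x) ≤ 0 := fun m => by
    have h1 := (hd m).2
    rw [pd_pd_mul hΩ hf (hSp _) hx, hdp (j + 1) x hx,
      pd_congr_on hΩ hx (f := pd m fun y => S y ^ (j + 2))
        (g := fun y => -(((j + 1 : ℕ) : ℝ) + 1) * S y ^ (j + 1) * pd m u y)
        (fun y hy => hdp (j + 1) y hy m) m,
      pd_mul (((sm_const _).mul (hSp _)).differentiableAt hΩ hx)
        ((h.sm.pd hΩ m).differentiableAt hΩ hx),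
      pd_mul (differentiableAt_const _) ((hSp _).differentiableAt hΩ hx), pd_const,
      hdp j x hx] at h1
    have h2 : S x ^ j * (S x ^ 2 * pd m (pd m f) x + f x *
        (-(((j + 2 : ℕ) : ℝ) ^ 2 + (j + 2 : ℕ)) * pd m u x ^ 2 - ((j + 2 : ℕ) : ℝ) * S x *
          pd m (pd m u) x)) ≤ 0 := by
      refine le_trans (le_of_eq ?_) h1
      have e := hfirst m
      push_cast at e ⊢
      linear_combination (2 * ((j : ℝ) + 2) * S x ^ j * pd m u x) * e
    exact nonpos_of_mul_nonpos_right h2 (pow_pos hs j)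
  have hone : ∀ m, pd m (pd m u) x = 1 := fun m => by
    show hess u x m m = 1
    rw [hI, Matrix.one_apply_eq]
  have := sum_nonpos fun m (_ : m ∈ (univ : Finset (Fin n))) => hsec m
  simp only [hone, mul_sub, sum_add_distrib, sum_sub_distrib, ← mul_sum, sum_const, card_univ,
    Fintype.card_fin, nsmul_eq_mul, mul_one] at this
  simp only [lap]
  nlinarith

/-- The gradient bound at a maximum, at a point with `D²u = 1`. -/
lemma qZ_max (hx : x ∈ Ω) (hI : hess u x = 1) {R : ℝ} (hs : 0 < R - u x) (hn : 1 ≤ n)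
    (hmax : IsLocalMax (fun y => qZ u y * (R - u y) ^ (2 * n)) x) :
    qZ u x ≤ ((n : ℝ) + 3) * (R - u x) := by
  obtain ⟨hZ, hgrad, hlap⟩ := h.qZ_data hx hI
  obtain ⟨hfirst, hsecond⟩ := h.max_test hx hI h.sm_qZ hs (k := 2 * n) (by omega) hmax
  set v : Fin n → ℝ := fun a => pd a u x
  set W := ∑ a, v a • mh u a x
  set s := R - u x
  set Z := qZ u x
  have hn' : (1 : ℝ) ≤ n := by exact_mod_cast hn
  rcases le_or_gt Z 0 with hZ0 | hZ0
  · nlinarith
  have hWt : (s • W)ᵀ = s • W := by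
    simp only [W, transpose_smul, transpose_sum, (h.sym3 hx hI).transpose]
  have hWtr : (s • W).trace = 0 := by
    simp [W, trace_smul, trace_sum, h.trace_mh hx hI]
  have hvv : 0 < v ⬝ᵥ v := by
    have : v ⬝ᵥ v = Z := by rw [hZ]; simp [dotProduct, v, sq]
    rw [this]; exact hZ0
  have hev : (s • W) *ᵥ v = (2 * s - 2 * n * Z) • v := by
    funext m
    have h1 := hgrad m
    have h2 := hfirst m
    rw [h1] at h2
    push_cast at h2
    simp only [smul_mulVec, Pi.smul_apply, smul_eq_mul]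
    linear_combination -h2
  have hfr := frob_bound hWt hWtr hvv hev
  rw [Matrix.smul_mul, Matrix.mul_smul, trace_smul, trace_smul, smul_eq_mul, smul_eq_mul] at hfr
  rw [hlap, ← hZ] at hsecond
  push_cast at hsecond
  have hkey : (2 * (n : ℝ) ^ 2 + 2 * n) * Z ≤ (2 * (n : ℝ) ^ 3 + 6 * (n : ℝ) ^ 2) * s := by
    have h1 : s * (s * (W * W).trace) ≤
        ((2 * (n : ℝ)) ^ 2 + 2 * n) * Z * Z + 2 * n * n * s * Z - 2 * n * s ^ 2 := by nlinarith
    have h2 := mul_le_mul_of_nonneg_left h1 (sub_nonneg.2 hn')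
    have h3 : (2 * (n : ℝ) ^ 2 + 2 * n) * Z * Z ≤ (2 * (n : ℝ) ^ 3 + 6 * (n : ℝ) ^ 2) * s * Z := by
      nlinarith [sq_nonneg s]
    exact le_of_mul_le_mul_right h3 hZ0
  have : (2 * (n : ℝ) ^ 2 + 2 * n) * Z ≤ (2 * (n : ℝ) ^ 2 + 2 * n) * (((n : ℝ) + 3) * s) := by
    refine hkey.trans ?_
    nlinarith [mul_nonneg (mul_nonneg (Nat.cast_nonneg (α := ℝ) n) hs.le) (by linarith : (0:ℝ) ≤ n + 3)]
  exact le_of_mul_le_mul_left this (by positivity)

/-- The bound on `D³u` at a maximum, at a point with `D²u = 1`. -/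
lemma qP_max (hx : x ∈ Ω) (hI : hess u x = 1) {R : ℝ} (hs : 0 < R - u x)
    (hmax : IsLocalMax (fun y => qP u y * (R - u y) ^ 2) x) :
    qP u x * (R - u x) ^ 2 ≤ 2 * n * (6 * qZ u x + 2 * n * (R - u x)) := by
  obtain ⟨-, hsecond⟩ := h.max_test hx hI h.sm_qP hs (k := 2) le_rfl hmax
  rw [← (h.qZ_data hx hI).1] at hsecond
  push_cast at hsecond
  have hc := h.calabi hx hI
  have hP := h.qP_nonneg_one hx hI
  rcases hP.eq_or_lt with h0 | h0
  · rw [← h0]
    have : 0 ≤ qZ u x := by rw [(h.qZ_data hx hI).1]; positivity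
    rw [zero_mul]
    exact mul_nonneg (by positivity) (add_nonneg (by positivity) (mul_nonneg (by positivity) hs.le))
  refine le_of_mul_le_mul_left ?_ h0
  have hn : (0 : ℝ) ≤ 2 * n := by positivity
  calc qP u x * (qP u x * (R - u x) ^ 2) = qP u x ^ 2 * (R - u x) ^ 2 := by ring
    _ ≤ 2 * n * lap (qP u) x * (R - u x) ^ 2 := by gcongr
    _ = 2 * n * ((R - u x) ^ 2 * lap (qP u) x) := by ring
    _ ≤ 2 * n * ((2 ^ 2 + 2) * qP u x * qZ u x + 2 * n * (R - u x) * qP u x) :=
        mul_le_mul_of_nonneg_left hsecond hn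
    _ = _ := by ring

/-- Normal coordinates at a point. -/
lemma exists_normal (hx : x ∈ Ω) : ∃ B, ∃ h' : MA (affMap B x ⁻¹' Ω) (pull B x u),
    hess (pull B x u) 0 = 1 ∧ (0 : Fin n → ℝ) ∈ affMap B x ⁻¹' Ω ∧ Normal B := by
  obtain ⟨B, hB⟩ := exists_normalizer (h.pos x hx)
  have hx' : affMap B x 0 ∈ Ω := by rwa [affMap_zero]
  refine ⟨B, h.ma_pull (h.normal_of hx hB), ?_, hx', h.normal_of hx hB⟩
  rw [hess_pull h.isOpen h.sm hx', affMap_zero, hB]

lemma qP_nonneg (hx : x ∈ Ω) : 0 ≤ qP u x := by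
  obtain ⟨B, h', hI, h0, hN⟩ := h.exists_normal hx
  have := h'.qP_nonneg_one h0 hI
  rwa [h.qP_pull hN h0, affMap_zero] at this

lemma qZ_nonneg (hx : x ∈ Ω) : 0 ≤ qZ u x := by
  obtain ⟨B, h', hI, h0, hN⟩ := h.exists_normal hx
  have : 0 ≤ qZ (pull B x u) 0 := by rw [(h'.qZ_data h0 hI).1]; positivity
  rwa [h.qZ_pull hN h0, affMap_zero] at this

variable (hge : ∀ y ∈ Ω, 0 ≤ u y) (hcomp : ∀ R : ℝ, IsCompact {y | y ∈ Ω ∧ u y ≤ R})
include hge hcomp

/-- A maximum of `f (R - u)^k` over a sublevel set is interior unless it is zero. -/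
lemma sup_test {f : (Fin n → ℝ) → ℝ} (hf : Sm Ω f) (hf0 : ∀ y ∈ Ω, 0 ≤ f y) {R : ℝ} {k : ℕ}
    (hk : k ≠ 0) {C : ℝ} (hC : 0 ≤ C)
    (hloc : ∀ y ∈ Ω, u y < R → IsLocalMax (fun z => f z * (R - u z) ^ k) y →
      f y * (R - u y) ^ k ≤ C) {y : Fin n → ℝ} (hy : y ∈ Ω) (hyR : u y ≤ R) :
    f y * (R - u y) ^ k ≤ C := by
  set K := {y | y ∈ Ω ∧ u y ≤ R}
  have hcont : ContinuousOn (fun z => f z * (R - u z) ^ k) K :=
    ((hf.mul (((sm_const R).sub h.sm).pow k)).continuousOn).mono fun z hz => hz.1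
  obtain ⟨p, hp, hmax⟩ := (hcomp R).exists_isMaxOn ⟨y, hy, hyR⟩ hcont
  refine le_trans (hmax ⟨hy, hyR⟩) ?_
  rcases eq_or_lt_of_le hp.2 with he | hlt
  · simp [he, hk, hC]
  refine hloc p hp.1 hlt ?_
  have hnhds : ∀ᶠ z in 𝓝 p, z ∈ K := by
    filter_upwards [h.isOpen.mem_nhds hp.1,
      (h.sm.contDiffAt h.isOpen hp.1).continuousAt.eventually (gt_mem_nhds hlt)] with z hz1 hz2
    exact ⟨hz1, hz2.le⟩
  filter_upwards [hnhds] with z hz using hmax hz

lemma qZ_le {R : ℝ} (hR : 0 < R) (hn : 1 ≤ n) {y : Fin n → ℝ} (hy : y ∈ Ω) (hyR : u y ≤ R / 2) :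
    qZ u y ≤ ((n : ℝ) + 3) * 2 ^ (2 * n) * R := by
  have hb := h.sup_test hge hcomp h.sm_qZ (fun z hz => h.qZ_nonneg hz) (R := R) (k := 2 * n)
    (by omega) (C := ((n : ℝ) + 3) * R ^ (2 * n + 1)) (by positivity) (fun p hp hlt hmax => by
      obtain ⟨B, h', hI, h0, hN⟩ := h.exists_normal hp
      have hs : 0 < R - pull B p u 0 := by simp only [pull, affMap_zero]; linarith
      have hmax' : IsLocalMax (fun z => qZ (pull B p u) z * (R - pull B p u z) ^ (2 * n)) 0 := by
        have hc : IsLocalMax ((fun z => qZ u z * (R - u z) ^ (2 * n)) ∘ affMap B p) 0 :=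
          (show IsLocalMax _ (affMap B p 0) by rwa [affMap_zero]).comp_continuous
            (contDiff_affMap B p).continuous.continuousAt
        refine hc.congr ?_
        filter_upwards [h'.isOpen.mem_nhds h0] with z hz
        show qZ u (affMap B p z) * _ = _
        rw [h.qZ_pull hN hz]
        rfl
      have h1 := h'.qZ_max h0 hI hs hn hmax'
      rw [h.qZ_pull hN h0] at h1
      simp only [pull, affMap_zero] at h1 hs
      have hle : R - u p ≤ R := by linarith [hge p hp]
      calc qZ u p * (R - u p) ^ (2 * n) ≤ ((n : ℝ) + 3) * (R - u p) * (R - u p) ^ (2 * n) :=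
            mul_le_mul_of_nonneg_right h1 (by positivity)
        _ = ((n : ℝ) + 3) * (R - u p) ^ (2 * n + 1) := by ring
        _ ≤ _ := by gcongr) hy (by linarith)
  have h2 : qZ u y * (R / 2) ^ (2 * n) ≤ qZ u y * (R - u y) ^ (2 * n) := by
    have := h.qZ_nonneg hy
    gcongr
    linarith
  have h3 := h2.trans hb
  have hpos : (0 : ℝ) < (R / 2) ^ (2 * n) := by positivity
  refine le_of_mul_le_mul_right (h3.trans_eq ?_) hpos
  rw [div_pow, pow_succ]
  field_simp

lemma qP_eq_zero (hn : 1 ≤ n) {y : Fin n → ℝ} (hy : y ∈ Ω) : qP u y = 0 := by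
  set cn : ℝ := ((n : ℝ) + 3) * 2 ^ (2 * n)
  set C : ℝ := 2 * n * (6 * cn + 2 * n)
  have key : ∀ R, 0 < R → u y ≤ R / 4 → qP u y ≤ 16 * C / R := fun R hR hyR => by
    have hb := h.sup_test hge hcomp h.sm_qP (fun z hz => h.qP_nonneg hz) (R := R / 2) (k := 2)
      two_ne_zero (C := C * R) (by positivity) (fun p hp hlt hmax => by
        obtain ⟨B, h', hI, h0, hN⟩ := h.exists_normal hp
        have hs : 0 < R / 2 - pull B p u 0 := by simp only [pull, affMap_zero]; linarith
        have hmax' : IsLocalMax (fun z => qP (pull B p u) z * (R / 2 - pull B p u z) ^ 2) 0 := by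
          have hc : IsLocalMax ((fun z => qP u z * (R / 2 - u z) ^ 2) ∘ affMap B p) 0 :=
            (show IsLocalMax _ (affMap B p 0) by rwa [affMap_zero]).comp_continuous
              (contDiff_affMap B p).continuous.continuousAt
          refine hc.congr ?_
          filter_upwards [h'.isOpen.mem_nhds h0] with z hz
          show qP u (affMap B p z) * _ = _
          rw [h.qP_pull hN hz]
          rfl
        have h1 := h'.qP_max h0 hI hs hmax'
        rw [h.qP_pull hN h0, h.qZ_pull hN h0] at h1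
        simp only [pull, affMap_zero] at h1 hs
        refine h1.trans ?_
        have hz := h.qZ_le hge hcomp hR hn hp hlt.le
        have := hge p hp
        have hn0 : (0 : ℝ) ≤ n := Nat.cast_nonneg n
        calc 2 * (n : ℝ) * (6 * qZ u p + 2 * n * (R / 2 - u p))
            ≤ 2 * n * (6 * (cn * R) + 2 * n * R) := by
              gcongr
              linarith
          _ = C * R := by ring) hy (by linarith)
    have h2 : qP u y * (R / 4) ^ 2 ≤ qP u y * (R / 2 - u y) ^ 2 := by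
      have := h.qP_nonneg hy
      gcongr
      linarith
    have h3 := h2.trans hb
    rw [le_div_iff₀ hR]
    nlinarith
  refine le_antisymm ?_ (h.qP_nonneg hy)
  by_contra! hpos
  set R := max (4 * u y) (32 * C / qP u y) + 1
  have hu0 := hge y hy
  have hR : 0 < R := by
    have : 0 ≤ 4 * u y := by linarith
    have := le_max_left (4 * u y) (32 * C / qP u y)
    simp only [R]; linarith
  have h1 := key R hR (by have := le_max_left (4 * u y) (32 * C / qP u y); simp only [R]; linarith)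
  have h2 : 32 * C / qP u y < R := by
    have := le_max_right (4 * u y) (32 * C / qP u y); simp only [R]; linarith
  rw [div_lt_iff₀ hpos] at h2
  rw [le_div_iff₀ hR] at h1
  have : 0 ≤ C := by positivity
  nlinarith

lemma third_eq_zero (hn : 1 ≤ n) {y : Fin n → ℝ} (hy : y ∈ Ω) (a : Fin n) : mh u a y = 0 := by
  obtain ⟨B, h', hI, h0, hN⟩ := h.exists_normal hy
  have hP : qP (pull B y u) 0 = 0 := by
    rw [h.qP_pull hN h0, affMap_zero]; exact h.qP_eq_zero hge hcomp hn hy
  have hX : ∀ k, ∑ b, B b k • mh u b y = 0 := fun k => by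
    have h1 := h'.mh_eq_zero h0 hI hP k
    rw [h.mh_pull hN h0, affMap_zero] at h1
    have h2 := congrArg (fun X => B⁻¹ᵀ * X * B⁻¹) h1
    have hu := hN.isUnit
    have e' : B⁻¹ᵀ * Bᵀ = 1 := by rw [← transpose_mul, mul_nonsing_inv _ hu, transpose_one]
    simp only [mul_zero, zero_mul] at h2
    rwa [show B⁻¹ᵀ * (Bᵀ * (∑ b, B b k • mh u b y) * B) * B⁻¹ =
      (B⁻¹ᵀ * Bᵀ) * (∑ b, B b k • mh u b y) * (B * B⁻¹) by simp only [mul_assoc], e',
      mul_nonsing_inv _ hu, one_mul, mul_one] at h2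
  have h3 : ∑ k, B⁻¹ k a • (∑ b, B b k • mh u b y) = 0 := by simp [hX]
  simp only [smul_sum, smul_smul] at h3
  rw [sum_comm] at h3
  simp only [← sum_smul] at h3
  have e : ∀ b, ∑ k, B⁻¹ k a * B b k = if b = a then 1 else 0 := fun b => by
    rw [← Matrix.one_apply (i := b) (j := a), ← mul_nonsing_inv _ hN.isUnit, Matrix.mul_apply]
    exact sum_congr rfl fun k _ => mul_comm _ _
  simpa [e] using h3

end MA

/-! ### Quadratic polynomials -/

lemma eq_const_of_pd_eq_zero (hΩ : IsOpen Ω) (hc : IsPreconnected Ω) {f : (Fin n → ℝ) → ℝ}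
    (hf : Sm Ω f) (h0 : ∀ y ∈ Ω, ∀ i, pd i f y = 0) (hx : x ∈ Ω) :
    ∀ y ∈ Ω, f y = f x := by
  intro y hy
  refine hΩ.is_const_of_fderiv_eq_zero hc (hf.differentiableOn (by simp)) (fun z hz => ?_) hy hx
  refine ContinuousLinearMap.ext fun w => ?_
  rw [pi_eq_sum_univ' w, map_sum]
  exact (sum_eq_zero fun i _ => by
    rw [map_smul, show fderiv ℝ f z (Pi.single i 1) = pd i f z from rfl, h0 z hz i, smul_zero])

lemma quadratic_of_third_zero (hΩ : IsOpen Ω) (hc : IsPreconnected Ω) (hu : Sm Ω u)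
    (h3 : ∀ y ∈ Ω, ∀ k, mh u k y = 0) :
    ∃ (A : Matrix (Fin n) (Fin n) ℝ) (b : Fin n → ℝ) (c : ℝ),
      ∀ y ∈ Ω, u y = (∑ i, ∑ j, A i j * y i * y j) + (∑ i, b i * y i) + c := by
  rcases Ω.eq_empty_or_nonempty with he | ⟨x₀, hx₀⟩
  · exact ⟨0, 0, 0, by simp [he]⟩
  set H := hess u x₀
  have hH : ∀ y ∈ Ω, ∀ i j, pd i (pd j u) y = H i j := fun y hy i j =>
    eq_const_of_pd_eq_zero hΩ hc (hu.hess hΩ i j) (fun z hz k => by
      show mh u k z i j = 0
      rw [h3 z hz k]; rfl) hx₀ y hy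
  have hco : ∀ j, ContDiff ℝ ∞ fun y : Fin n → ℝ => y j := fun j => contDiff_apply ℝ ℝ j
  have hpdc : ∀ (y : Fin n → ℝ) i j, pd i (fun z : Fin n → ℝ => z j) y = if j = i then 1 else 0 :=
    fun y i j => by
      rw [pd, (hasFDerivAt_apply j y).fderiv]
      simp [Pi.single_apply]
  -- the gradient is affine
  set L : Fin n → (Fin n → ℝ) → ℝ := fun j y => pd j u y - ∑ i, H i j * y i
  have hlin : ∀ j, Sm Ω fun y : Fin n → ℝ => ∑ i, H i j * y i := fun j =>
    sm_sum _ fun i _ => (sm_const _).mul (hco i).contDiffOn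
  have hL : ∀ j, ∀ y ∈ Ω, L j y = L j x₀ := fun j =>
    eq_const_of_pd_eq_zero hΩ hc ((hu.pd hΩ j).sub (hlin j)) (fun y hy i => by
      rw [pd_sub ((hu.pd hΩ j).differentiableAt hΩ hy) ((hlin j).differentiableAt hΩ hy), hH y hy,
        pd_sum (fun k _ => ((hco k).differentiable (by simp) y).const_mul _)]
      simp [pd_mul (differentiableAt_const _) ((hco _).differentiable (by simp) y), pd_const, hpdc])
      hx₀
  set q : (Fin n → ℝ) → ℝ := fun y =>
    (∑ i, ∑ j, H i j / 2 * y i * y j) + ∑ i, L i x₀ * y i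
  have hqs : Sm Ω q :=
    (sm_sum _ fun i _ => sm_sum _ fun j _ =>
      ((sm_const _).mul (hco i).contDiffOn).mul (hco j).contDiffOn).add
      (sm_sum _ fun i _ => (sm_const _).mul (hco i).contDiffOn)
  refine ⟨Matrix.of fun i j => H i j / 2, fun i => L i x₀, u x₀ - q x₀, fun y hy => ?_⟩
  have hfin := eq_const_of_pd_eq_zero hΩ hc (f := fun z => u z - q z) (hu.sub hqs) (fun z hz i => by
    rw [pd_sub (hu.differentiableAt hΩ hz) (hqs.differentiableAt hΩ hz)]
    have hc' : ∀ k, DifferentiableAt ℝ (fun w : Fin n → ℝ => w k) z := fun k =>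
      (hco k).differentiable (by simp) z
    have hT : ∀ (k l : Fin n), DifferentiableAt ℝ (fun w : Fin n → ℝ => H k l / 2 * w k * w l) z :=
      fun k l => (((hc' k).const_mul _).fun_mul (hc' l))
    simp only [q]
    rw [pd_add (DifferentiableAt.fun_sum fun k _ => DifferentiableAt.fun_sum fun l _ => hT k l)
      (DifferentiableAt.fun_sum fun k _ => (hc' k).const_mul _),
      pd_sum (fun k _ => (hc' k).const_mul _),
      pd_sum (fun k _ => DifferentiableAt.fun_sum fun l _ => hT k l)]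
    simp only [pd_sum (fun l _ => hT _ l), pd_mul ((hc' _).const_mul _) (hc' _),
      pd_mul (differentiableAt_const _) (hc' _), pd_const, hpdc, zero_mul, zero_add]
    have hsymm : ∀ k, H i k = H k i := fun k => by
      rw [← hH z hz i k, ← hH z hz k i]; exact pd_comm hΩ hu hz i k
    have e := hL i z hz
    simp only [L] at e
    simp [sum_add_distrib, hsymm, L]
    rw [← sum_add_distrib]
    simp only [← add_mul, add_halves]
    linarith) hx₀ y hy
  simp only [q] at hfin ⊢
  simp only [Matrix.of_apply]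
  linarith

/-- **Jörgens–Calabi–Pogorelov.** A solution of `det D²u = c` on a connected open set which lies
above an affine function with compact sublevel sets of the difference is quadratic. -/
theorem quadratic_of_det_const (hn : 1 ≤ n) (hΩ : IsOpen Ω) (hconn : IsPreconnected Ω)
    (hu : ContDiffOn ℝ ∞ u Ω) (hpos : ∀ y ∈ Ω, (hess u y).PosDef) {c : ℝ}
    (hdet : ∀ y ∈ Ω, (hess u y).det = c) (p : Fin n → ℝ) (q : ℝ)
    (hge : ∀ y ∈ Ω, (∑ i, p i * y i) + q ≤ u y)
    (hcomp : ∀ R : ℝ, IsCompact {y | y ∈ Ω ∧ u y ≤ (∑ i, p i * y i) + q + R}) :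
    ∃ (A : Matrix (Fin n) (Fin n) ℝ) (b : Fin n → ℝ) (c : ℝ),
      ∀ y ∈ Ω, u y = (∑ i, ∑ j, A i j * y i * y j) + (∑ i, b i * y i) + c := by
  rcases Ω.eq_empty_or_nonempty with he | ⟨x₀, hx₀⟩
  · exact ⟨0, 0, 0, by simp [he]⟩
  have hc : 0 < c := hdet x₀ hx₀ ▸ (hpos x₀ hx₀).det_pos
  set a : ℝ := c ^ (-(n : ℝ)⁻¹)
  have ha : 0 < a := Real.rpow_pos_of_pos hc _
  have han : a ^ n * c = 1 := by
    rw [← Real.rpow_natCast, ← Real.rpow_mul hc.le, neg_mul,
      inv_mul_cancel₀ (Nat.cast_ne_zero.2 (by omega)), Real.rpow_neg_one, inv_mul_cancel₀ hc.ne']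
  set l : (Fin n → ℝ) → ℝ := fun y => (∑ i, p i * y i) + q
  have hl : Sm Ω l := (sm_sum _ fun i _ => (sm_const _).mul (contDiff_apply ℝ ℝ i).contDiffOn).add
    (sm_const q)
  set v : (Fin n → ℝ) → ℝ := fun y => a * (u y - l y)
  have hu' : Sm Ω u := hu
  have hvs : Sm Ω v := (sm_const a).mul (hu'.sub hl)
  have hv : ∀ y ∈ Ω, hess v y = a • hess u y := fun y hy => by
    ext i j
    have h1 : ∀ z ∈ Ω, pd j v z = (fun w => a * pd j u w - a * p j) z := fun z hz => by
      have hc' : ∀ k, DifferentiableAt ℝ (fun w : Fin n → ℝ => w k) z := fun k =>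
        (contDiff_apply ℝ ℝ k).differentiable (by simp : (∞ : WithTop ℕ∞) ≠ 0) z
      rw [pd_mul (differentiableAt_const _) ((hu'.sub hl).differentiableAt hΩ hz), pd_const,
        pd_sub (hu'.differentiableAt hΩ hz) (hl.differentiableAt hΩ hz),
        pd_add (DifferentiableAt.fun_sum fun k _ => (hc' k).const_mul _) (differentiableAt_const _),
        pd_sum (fun k _ => (hc' k).const_mul _), pd_const]
      have : ∀ k, pd j (fun w : Fin n → ℝ => p k * w k) z = if k = j then p k else 0 := fun k => by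
        rw [pd_mul (differentiableAt_const _) (hc' k), pd_const]
        simp only [pd, (hasFDerivAt_apply k z).fderiv]
        simp [Pi.single_apply]
      simp [this]
      ring
    show pd i (pd j v) y = a * pd i (pd j u) y
    rw [pd_congr_on hΩ hy h1, pd_sub (((hu'.pd hΩ j).differentiableAt hΩ hy).const_mul _)
      (differentiableAt_const _), pd_const,
      pd_mul (differentiableAt_const _) ((hu'.pd hΩ j).differentiableAt hΩ hy), pd_const]
    ring
  have hma : MA Ω v :=
    { isOpen := hΩ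
      sm := hvs
      det_eq := fun y hy => by
        rw [hv y hy, det_smul, Fintype.card_fin, hdet y hy, han]
      pos := fun y hy => by rw [hv y hy]; exact (hpos y hy).smul ha }
  have hge' : ∀ y ∈ Ω, 0 ≤ v y := fun y hy => mul_nonneg ha.le (sub_nonneg.2 (hge y hy))
  have hcomp' : ∀ R : ℝ, IsCompact {y | y ∈ Ω ∧ v y ≤ R} := fun R => by
    convert hcomp (R / a) using 2
    ext y
    refine and_congr_right fun _ => ?_
    show a * (u _ - l _) ≤ R ↔ _
    rw [← le_div_iff₀' ha, sub_le_iff_le_add, add_comm]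
  obtain ⟨A, b, d, hq⟩ := quadratic_of_third_zero hΩ hconn hvs fun y hy k =>
    hma.third_eq_zero hge' hcomp' hn hy k
  refine ⟨Matrix.of fun i j => A i j / a, fun i => b i / a + p i, d / a + q, fun y hy => ?_⟩
  have e := hq y hy
  have e1 : u y = ((∑ i, ∑ j, A i j * y i * y j) + (∑ i, b i * y i) + d) / a + l y := by
    rw [← e]
    simp only [v]
    field_simp
    ring
  rw [e1]
  simp only [l, Matrix.of_apply, add_div, sum_div, add_mul, sum_add_distrib]
  have : ∀ i j, A i j / a * y i * y j = A i j * y i * y j / a := fun i j => by ring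
  simp only [div_mul_eq_mul_div]
  ring

end

end Vale.Agent.P252
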