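import Mathlib

/-!
# The algebra behind Calabi's inequality

`M a` is the matrix `(u_abc)_{bc}` and `B a b` the matrix `(u_abcd)_{cd}` at a point with
`D²u = 1`; both are fully symmetric in their indices.
-/

namespace Vale.Agent.P252

open Finset Matrix

noncomputable section

variable {n : ℕ}

/-- Symmetric in all three indices. -/
structure Sym3 (M : Fin n → Matrix (Fin n) (Fin n) ℝ) : Prop where
  s12 : ∀ a b c, M a b c = M b a c
  s23 : ∀ a b c, M a b c = M a c b

/-- Symmetric in all four indices. -/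
structure Sym4 (B : Fin n → Fin n → Matrix (Fin n) (Fin n) ℝ) : Prop where
  s12 : ∀ a b c d, B a b c d = B b a c d
  s23 : ∀ a b c d, B a b c d = B a c b d
  s34 : ∀ a b c d, B a b c d = B a b d c

variable {M : Fin n → Matrix (Fin n) (Fin n) ℝ} {B : Fin n → Fin n → Matrix (Fin n) (Fin n) ℝ}

/-- `∑_c u_abc M_c`. -/
def nm (M : Fin n → Matrix (Fin n) (Fin n) ℝ) (a b : Fin n) : Matrix (Fin n) (Fin n) ℝ :=
  ∑ c, M a b c • M c

lemma Sym3.transpose (h : Sym3 M) (a : Fin n) : (M a)ᵀ = M a := by
  ext i j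
  exact h.s23 a j i

lemma Sym4.transpose (h : Sym4 B) (a b : Fin n) : (B a b)ᵀ = B a b := by
  ext i j
  exact h.s34 a b j i

lemma Sym4.swap (h : Sym4 B) (a b : Fin n) : B a b = B b a := by
  ext i j
  exact h.s12 a b i j

lemma nm_transpose (h : Sym3 M) (a b : Fin n) : (nm M a b)ᵀ = nm M a b := by
  simp [nm, transpose_sum, h.transpose]

lemma nm_swap (h : Sym3 M) (a b : Fin n) : nm M a b = nm M b a := by
  simp only [nm]
  exact sum_congr rfl fun c _ => by rw [h.s12 a b c]

lemma mul_apply_swap (h : Sym3 M) (p q r s : Fin n) :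
    (M p * M q) r s = (M r * M q) p s := by
  simp only [Matrix.mul_apply]
  exact sum_congr rfl fun d _ => by rw [h.s12 p r d]

lemma mul_apply_flip (h : Sym3 M) (p q r s : Fin n) : (M p * M q) r s = (M q * M p) s r := by
  rw [← Matrix.transpose_apply (M q * M p), Matrix.transpose_mul, h.transpose, h.transpose]

lemma mul_apply_pair (h : Sym3 M) (p q r s : Fin n) : (M p * M q) r s = (M r * M s) p q := by
  rw [mul_apply_swap h p q r s, mul_apply_flip h r q p s, mul_apply_swap h q r s p,
    mul_apply_flip h s r q p]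

lemma mul_apply_swap_right (h : Sym3 M) (p q r s : Fin n) :
    (M p * M q) r s = (M p * M s) r q := by
  rw [mul_apply_flip h p q r s, mul_apply_swap h q p s r, mul_apply_flip h s p q r]

lemma nm_apply (h : Sym3 M) (a b i j : Fin n) : nm M a b i j = (M a * M i) b j := by
  simp only [nm, Matrix.sum_apply, Matrix.smul_apply, smul_eq_mul, Matrix.mul_apply]
  exact sum_congr rfl fun c _ => by rw [h.s12 c i j]

lemma sum_sq_apply (h : Sym3 M) (a b : Fin n) : (∑ m, M m * M m) a b = (M a * M b).trace := by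
  simp only [Matrix.sum_apply, Matrix.trace, Matrix.diag_apply, Matrix.mul_apply]
  refine sum_congr rfl fun m _ => sum_congr rfl fun c _ => ?_
  rw [h.s12 m a c, h.s12 m c b, h.s23 c m b, h.s12 c b m]

lemma trace_mul_eq_sum (X Y : Matrix (Fin n) (Fin n) ℝ) :
    (X * Y).trace = ∑ i, ∑ j, X i j * Y j i := by
  simp [Matrix.trace, Matrix.mul_apply]

lemma sum4_reindex (e : Fin n × Fin n × Fin n × Fin n ≃ Fin n × Fin n × Fin n × Fin n)
    (f : Fin n → Fin n → Fin n → Fin n → ℝ) :
    ∑ a, ∑ b, ∑ i, ∑ j, f a b i j = ∑ a, ∑ b, ∑ i, ∑ j,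
      f (e (a, b, i, j)).1 (e (a, b, i, j)).2.1 (e (a, b, i, j)).2.2.1 (e (a, b, i, j)).2.2.2 := by
  have h := (e.sum_comp fun p => f p.1 p.2.1 p.2.2.1 p.2.2.2).symm
  simpa only [Fintype.sum_prod_type] using h

lemma sum_trace_nm (hM : Sym3 M) :
    ∑ a, ∑ b, (M a * M b * nm M a b).trace = ∑ a, ∑ b, (M a * M b * (M a * M b)).trace := by
  simp only [trace_mul_eq_sum (M _ * M _)]
  rw [sum4_reindex ⟨fun p => (p.2.2.1, p.2.1, p.1, p.2.2.2), fun p => (p.2.2.1, p.2.1, p.1, p.2.2.2),
    fun _ => rfl, fun _ => rfl⟩]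
  refine sum_congr rfl fun m _ => sum_congr rfl fun k _ => sum_congr rfl fun i _ =>
    sum_congr rfl fun j _ => ?_
  simp only [Equiv.coe_fn_mk]
  rw [nm_apply hM, mul_apply_swap hM i k m j]
  congr 1
  rw [mul_apply_flip hM i j k m, mul_apply_swap hM j i m k]
  exact mul_apply_swap_right hM _ _ _ _

lemma sum_trace_nm_quad (hM : Sym3 M) (hB : Sym4 B) :
    ∑ a, ∑ b, (B a b * nm M a b).trace = ∑ a, ∑ b, (B a b * (M b * M a)).trace := by
  simp only [trace_mul_eq_sum]
  rw [sum4_reindex ⟨fun p => (p.1, p.2.2.1, p.2.1, p.2.2.2), fun p => (p.1, p.2.2.1, p.2.1, p.2.2.2),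
    fun _ => rfl, fun _ => rfl⟩]
  refine sum_congr rfl fun m _ => sum_congr rfl fun k _ => sum_congr rfl fun i _ =>
    sum_congr rfl fun j _ => ?_
  simp only [Equiv.coe_fn_mk]
  rw [hB.s23 m i k j, nm_apply hM]
  congr 1
  rw [mul_apply_flip hM k m j i]
  exact mul_apply_swap_right hM _ _ _ _

lemma trace_sq_nonneg {X : Matrix (Fin n) (Fin n) ℝ} (h : Xᵀ = X) : 0 ≤ (X * X).trace := by
  conv_rhs => rw [trace_mul_eq_sum]
  exact sum_nonneg fun i _ => sum_nonneg fun j _ => by
    rw [show X j i = X i j from congrFun (congrFun h i) j]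
    exact mul_self_nonneg _

/-- The Laplacian of the squared norm of `D³u` at a point with `D²u = 1`, as it comes out of the
product rule, bounds its square. -/
theorem tensor_bound (hM : Sym3 M) (hB : Sym4 B) (X : Fin n → Fin n → Matrix (Fin n) (Fin n) ℝ)
    (hS : ∑ m, B m m = ∑ m, M m * M m)
    (hX : ∀ k a b, (∑ m, X m k) a b = (B k a * M b).trace + (M a * B k b).trace +
      (M k * B a b).trace - (M k * M a * M b).trace - (M a * M k * M b).trace) :
    (∑ k, (M k * M k).trace) ^ 2 ≤ (2 * n : ℝ) *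
      (∑ k, ∑ l, (M k * M l).trace ^ 2 +
       ∑ m, ∑ k, ∑ l, 2 * -(M m k l) *
          (((B m k - M m * M k) * M l).trace + (M k * (B m l - M m * M l)).trace) +
       ∑ m, ∑ k, (2 * ((2 • (M m * M m * M k) - B m m * M k - 2 • (M m * B m k) + X m k)
            * M k).trace +
          2 * ((B m k - M m * M k) * (B m k - M m * M k)).trace)) := by
  set U := ∑ a, ∑ b, (B a b * (M b * M a)).trace with hU
  set BB := ∑ a, ∑ b, (B a b * B a b).trace
  set W := ∑ a, ∑ b, (M a * M b * (M a * M b)).trace with hW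
  set SS := ∑ a, ∑ b, (M a * M a * (M b * M b)).trace
  set Q2 := ∑ k, ∑ l, (M k * M l).trace ^ 2
  have hUA : ∑ a, ∑ b, (B a b * nm M a b).trace = U := sum_trace_nm_quad hM hB
  have hUA' : ∑ a, ∑ b, (nm M a b * B a b).trace = U := by
    rw [← hUA]; exact sum_congr rfl fun a _ => sum_congr rfl fun b _ => trace_mul_comm _ _
  have hT : ∑ a, ∑ b, (M a * M b * nm M a b).trace = W := sum_trace_nm hM
  have hT' : ∑ a, ∑ b, (M b * M a * nm M a b).trace = W := by
    rw [← hT, sum_comm]
    exact sum_congr rfl fun a _ => sum_congr rfl fun b _ => by rw [nm_swap hM a b]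
  have hU1 : ∑ a, ∑ b, (B a b * (M a * M b)).trace = U := by
    rw [hU, sum_comm]
    exact sum_congr rfl fun a _ => sum_congr rfl fun b _ => by rw [hB.swap]
  have hU2 : ∑ a, ∑ b, (M a * M b * B a b).trace = U := by
    rw [← hU1]; exact sum_congr rfl fun a _ => sum_congr rfl fun b _ => trace_mul_comm _ _
  have hNN : ∑ a, ∑ b, (nm M a b * nm M a b).trace = Q2 := by
    have : ∀ a b, (nm M a b * nm M a b).trace =
        ∑ c, ∑ d, M a b c * M a b d * (M c * M d).trace := fun a b => by
      simp only [nm, Matrix.sum_mul, Matrix.mul_sum, Matrix.smul_mul, Matrix.mul_smul, trace_sum,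
        trace_smul, smul_eq_mul, ← mul_assoc, mul_sum]
      exact sum_congr rfl fun c _ => sum_congr rfl fun d _ => by rw [trace_mul_comm]
    simp only [this]
    calc ∑ a, ∑ b, ∑ c, ∑ d, M a b c * M a b d * (M c * M d).trace
        = ∑ c, ∑ d, (∑ a, ∑ b, M a b c * M a b d) * (M c * M d).trace := by
          simp only [sum_mul]
          rw [sum4_reindex ⟨fun p => (p.2.2.1, p.2.2.2, p.1, p.2.1),
            fun p => (p.2.2.1, p.2.2.2, p.1, p.2.1), fun _ => rfl, fun _ => rfl⟩]
          rfl
      _ = Q2 := sum_congr rfl fun c _ => sum_congr rfl fun d _ => by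
          rw [sq, trace_mul_eq_sum]
          congr 1
          exact sum_congr rfl fun a _ => sum_congr rfl fun b _ => by
            rw [hM.s23 a b c, hM.s12 a c b, hM.s23 a b d, hM.s12 a d b, hM.s23 d a b]
  -- the terms with a derivative of the metric
  have e2 : ∑ m, ∑ k, ∑ l, 2 * -(M m k l) *
      (((B m k - M m * M k) * M l).trace + (M k * (B m l - M m * M l)).trace) =
      -4 * U + 4 * W := by
    have h1 : ∑ m, ∑ k, ∑ l, M m k l * ((B m k - M m * M k) * M l).trace = U - W := by
      rw [← hUA, ← hT, ← sum_sub_distrib]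
      refine sum_congr rfl fun m _ => ?_
      rw [← sum_sub_distrib]
      refine sum_congr rfl fun k _ => ?_
      rw [← trace_sub, ← sub_mul, nm, Matrix.mul_sum, trace_sum]
      exact sum_congr rfl fun l _ => by rw [Matrix.mul_smul, trace_smul, smul_eq_mul]
    have h2 : ∑ m, ∑ k, ∑ l, M m k l * (M k * (B m l - M m * M l)).trace = U - W := by
      rw [← h1]
      refine sum_congr rfl fun m _ => ?_
      rw [sum_comm]
      exact sum_congr rfl fun k _ => sum_congr rfl fun l _ => by
        rw [trace_mul_comm (M l), hM.s23 m l k]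
    have : ∀ m k l, 2 * -(M m k l) *
        (((B m k - M m * M k) * M l).trace + (M k * (B m l - M m * M l)).trace) =
        -2 * (M m k l * ((B m k - M m * M k) * M l).trace) +
          -2 * (M m k l * (M k * (B m l - M m * M l)).trace) := fun m k l => by ring
    simp only [this, sum_add_distrib, ← mul_sum, h1, h2]
    ring
  -- the second derivative of `G M`
  have hXM : ∑ m, ∑ k, (X m k * M k).trace = 3 * U - 2 * W := by
    rw [sum_comm]
    have : ∀ k, ∑ m, (X m k * M k).trace = ∑ a, ∑ b, ((B k a * M b).trace + (M a * B k b).trace +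
        (M k * B a b).trace - (M k * M a * M b).trace - (M a * M k * M b).trace) * M k a b :=
      fun k => by
        rw [← trace_sum, ← Matrix.sum_mul, trace_mul_eq_sum]
        exact sum_congr rfl fun a _ => sum_congr rfl fun b _ => by rw [hX, hM.s23 k b a]
    simp only [this, add_mul, sub_mul, sum_add_distrib, sum_sub_distrib]
    have a1 : ∑ k, ∑ a, ∑ b, (B k a * M b).trace * M k a b = U := by
      rw [← hUA]
      refine sum_congr rfl fun k _ => sum_congr rfl fun a _ => ?_
      simp only [nm, Matrix.mul_sum, trace_sum, Matrix.mul_smul, trace_smul, smul_eq_mul]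
      exact sum_congr rfl fun b _ => mul_comm _ _
    have a2 : ∑ k, ∑ a, ∑ b, (M a * B k b).trace * M k a b = U := by
      rw [← hUA']
      refine sum_congr rfl fun k _ => ?_
      rw [sum_comm]
      refine sum_congr rfl fun b _ => ?_
      simp only [nm, Matrix.sum_mul, trace_sum, Matrix.smul_mul, trace_smul, smul_eq_mul]
      exact sum_congr rfl fun a _ => by rw [mul_comm, hM.s23 k a b]
    have a3 : ∑ k, ∑ a, ∑ b, (M k * B a b).trace * M k a b = U := by
      rw [← hUA']
      rw [sum_comm]
      refine sum_congr rfl fun a _ => ?_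
      rw [sum_comm]
      refine sum_congr rfl fun b _ => ?_
      simp only [nm, Matrix.sum_mul, trace_sum, Matrix.smul_mul, trace_smul, smul_eq_mul]
      exact sum_congr rfl fun k _ => by rw [mul_comm, hM.s12 k a b, hM.s23 a k b]
    have a4 : ∑ k, ∑ a, ∑ b, (M k * M a * M b).trace * M k a b = W := by
      rw [← hT]
      refine sum_congr rfl fun k _ => sum_congr rfl fun a _ => ?_
      simp only [nm, Matrix.mul_sum, trace_sum, Matrix.mul_smul, trace_smul, smul_eq_mul]
      exact sum_congr rfl fun b _ => mul_comm _ _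
    have a5 : ∑ k, ∑ a, ∑ b, (M a * M k * M b).trace * M k a b = W := by
      rw [← hT, sum_comm]
      refine sum_congr rfl fun a _ => sum_congr rfl fun k _ => ?_
      simp only [nm, Matrix.mul_sum, trace_sum, Matrix.mul_smul, trace_smul, smul_eq_mul]
      exact sum_congr rfl fun b _ => by rw [mul_comm, hM.s12 k a b]
    rw [a1, a2, a3, a4, a5]
    ring
  have hBmm : ∑ m, ∑ k, (B m m * M k * M k).trace = SS := by
    calc ∑ m, ∑ k, (B m m * M k * M k).trace = ∑ k, ((∑ m, B m m) * (M k * M k)).trace := by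
          rw [sum_comm]
          simp only [Matrix.sum_mul, trace_sum, mul_assoc]
      _ = SS := by
          rw [hS]
          simp only [Matrix.sum_mul, trace_sum]
          exact sum_comm
  have hMBM : ∑ m, ∑ k, (M m * B m k * M k).trace = U := by
    rw [← hU1, sum_comm]
    refine sum_congr rfl fun a _ => sum_congr rfl fun b _ => ?_
    rw [trace_mul_cycle, trace_mul_comm, hB.swap b a]
  have e3 : ∑ m, ∑ k, (2 * ((2 • (M m * M m * M k) - B m m * M k - 2 • (M m * B m k) + X m k)
      * M k).trace + 2 * ((B m k - M m * M k) * (B m k - M m * M k)).trace) =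
      2 * (2 * SS - SS - 2 * U + (3 * U - 2 * W)) + 2 * (BB - U - U + W) := by
    simp only [add_mul, sub_mul, mul_sub, trace_add, trace_sub, two_smul, mul_add,
      sum_add_distrib, sum_sub_distrib, ← mul_sum, mul_assoc (M _ * M _), hBmm, hMBM, hXM,
      hU1, hU2]
    simp only [BB, SS, W, mul_assoc]
    ring
  -- the covariant fourth derivative
  have hsq : 0 ≤ BB - 3 * U + (6 * W + 2 * SS + Q2) / 4 := by
    have h : 0 ≤ ∑ a, ∑ b, ((B a b - (1 / 2 : ℝ) • (M a * M b + M b * M a + nm M a b)) *
        (B a b - (1 / 2 : ℝ) • (M a * M b + M b * M a + nm M a b))).trace :=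
      sum_nonneg fun a _ => sum_nonneg fun b _ => trace_sq_nonneg (by
        rw [transpose_sub, transpose_smul, transpose_add, transpose_add, transpose_mul,
          transpose_mul, hB.transpose, nm_transpose hM, hM.transpose, hM.transpose, add_comm
          (M b * M a)])
    refine h.trans_eq ?_
    have hU3 : ∑ a, ∑ b, (M b * M a * B a b).trace = U :=
      (sum_congr rfl fun a _ => sum_congr rfl fun b _ => trace_mul_comm _ _).trans hU.symm
    have hT2 : ∑ a, ∑ b, (nm M a b * (M a * M b)).trace = W := by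
      rw [← hT]; exact sum_congr rfl fun a _ => sum_congr rfl fun b _ => trace_mul_comm _ _
    have hT3 : ∑ a, ∑ b, (nm M a b * (M b * M a)).trace = W := by
      rw [← hT']; exact sum_congr rfl fun a _ => sum_congr rfl fun b _ => trace_mul_comm _ _
    have hW' : ∑ a, ∑ b, (M b * M a * (M b * M a)).trace = W := by rw [hW, sum_comm]
    have hS1 : ∑ a, ∑ b, (M a * M b * (M b * M a)).trace = SS := by
      refine sum_congr rfl fun a _ => sum_congr rfl fun b _ => ?_
      rw [← mul_assoc, trace_mul_comm, ← mul_assoc, ← mul_assoc, mul_assoc (M a * M a)]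
    have hS2 : ∑ a, ∑ b, (M b * M a * (M a * M b)).trace = SS := by
      rw [← hS1]; exact sum_congr rfl fun a _ => sum_congr rfl fun b _ => trace_mul_comm _ _
    simp only [sub_mul, mul_sub, add_mul, mul_add, smul_add, Matrix.smul_mul, Matrix.mul_smul,
      smul_smul, trace_add, trace_sub, trace_smul, smul_eq_mul, sum_add_distrib, sum_sub_distrib,
      ← mul_sum, hU1, hU2, hU3, ← hU, hUA, hUA', hT, hT', hT2, hT3, hW', ← hW, hS1, hS2, hNN]
    ring
  have hcomm : W ≤ SS := by
    have h : 0 ≤ ∑ a, ∑ b, ((M a * M b - M b * M a)ᵀ * (M a * M b - M b * M a)).trace :=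
      sum_nonneg fun a _ => sum_nonneg fun b _ => by
        rw [trace_mul_eq_sum]
        exact sum_nonneg fun i _ => sum_nonneg fun j _ => mul_self_nonneg _
    have hS1 : ∑ a, ∑ b, (M b * M a * (M a * M b)).trace = SS := by
      refine sum_congr rfl fun a _ => sum_congr rfl fun b _ => ?_
      rw [trace_mul_comm, ← mul_assoc, trace_mul_comm, ← mul_assoc, ← mul_assoc,
        mul_assoc (M a * M a)]
    have hS2 : ∑ a, ∑ b, (M a * M b * (M b * M a)).trace = SS := by
      rw [← hS1]; exact sum_congr rfl fun a _ => sum_congr rfl fun b _ => trace_mul_comm _ _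
    have hW' : ∑ a, ∑ b, (M b * M a * (M b * M a)).trace = W := by rw [hW, sum_comm]
    simp only [transpose_sub, transpose_mul, hM.transpose, sub_mul, mul_sub, trace_sub,
      sum_sub_distrib, hS1, hS2, hW', ← hW] at h
    linarith
  have hcs : (∑ k, (M k * M k).trace) ^ 2 ≤ n * Q2 := by
    refine sq_sum_le_card_mul_sum_sq.trans ?_
    rw [card_univ, Fintype.card_fin]
    refine mul_le_mul_of_nonneg_left (sum_le_sum fun k _ => ?_) (Nat.cast_nonneg n)
    exact single_le_sum (f := fun l => (M k * M l).trace ^ 2) (fun l _ => sq_nonneg _) (mem_univ k)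
  rw [e2, e3]
  have hn : (0 : ℝ) ≤ n := Nat.cast_nonneg n
  nlinarith [mul_nonneg hn (sub_nonneg.2 hcomm), mul_nonneg hn hsq]

end

end Vale.Agent.P252
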