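import Vale.Agent.P252.Rigidity.Calc
import Vale.Agent.P252.Rigidity.Tensor

/-!
# The metric `D²u` of a solution of `det D²u = 1`

`qP` is the squared norm of `D³u` and `qZ` that of `Du` in the metric `D²u`. At a point where
`D²u = 1` we compute the gradient of `qZ` and the Laplacians of both, and prove Calabi's inequality
`(qP)² ≤ 2 n Δ qP`.
-/

namespace Vale.Agent.P252

open scoped ContDiff Topology Matrix
open Finset Matrix

noncomputable section

variable {n : ℕ} {Ω : Set (Fin n → ℝ)} {u : (Fin n → ℝ) → ℝ} {x : Fin n → ℝ}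

/-! ### Iterated partial derivatives -/

/-- Iterated partial derivative, the first index outermost. -/
def pdl : List (Fin n) → ((Fin n → ℝ) → ℝ) → (Fin n → ℝ) → ℝ
  | [], f => f
  | i :: l, f => pd i (pdl l f)

lemma Sm.pdl (hΩ : IsOpen Ω) (hu : Sm Ω u) : ∀ l : List (Fin n), Sm Ω (pdl l u)
  | [] => hu
  | i :: l => (hu.pdl hΩ l).pd hΩ i

lemma pdl_perm (hΩ : IsOpen Ω) (hu : Sm Ω u) {l l' : List (Fin n)} (h : l.Perm l') :
    ∀ y ∈ Ω, pdl l u y = pdl l' u y := by
  induction h with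
  | nil => exact fun y _ => rfl
  | cons i _ ih => exact fun y hy => pd_congr_on hΩ hy ih i
  | swap i j l => exact fun y hy => pd_comm hΩ (hu.pdl hΩ l) hy j i
  | trans _ _ ih ih' => exact fun y hy => (ih y hy).trans (ih' y hy)

/-! ### The equation -/

/-- `u` is a smooth solution of `det D²u = 1` with positive definite Hessian on the open `Ω`. -/
structure MA (Ω : Set (Fin n → ℝ)) (u : (Fin n → ℝ) → ℝ) : Prop where
  isOpen : IsOpen Ω
  sm : Sm Ω u
  det_eq : ∀ y ∈ Ω, (hess u y).det = 1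
  pos : ∀ y ∈ Ω, (hess u y).PosDef

/-- The inverse Hessian. -/
def hinv (u : (Fin n → ℝ) → ℝ) (y : Fin n → ℝ) : Matrix (Fin n) (Fin n) ℝ := (hess u y)⁻¹

/-- The matrix `(u_kab)_ab`. -/
def mh (u : (Fin n → ℝ) → ℝ) (k : Fin n) : (Fin n → ℝ) → Matrix (Fin n) (Fin n) ℝ :=
  mpd k (hess u)

/-- `(D²u)⁻¹ ∂_k D²u`. -/
def rk (u : (Fin n → ℝ) → ℝ) (k : Fin n) (y : Fin n → ℝ) : Matrix (Fin n) (Fin n) ℝ :=
  hinv u y * mh u k y

/-- `tr (R_k R_l)`. -/
def tau (u : (Fin n → ℝ) → ℝ) (k l : Fin n) (y : Fin n → ℝ) : ℝ := (rk u k y * rk u l y).trace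

/-- The squared norm of `D³u`. -/
def qP (u : (Fin n → ℝ) → ℝ) (y : Fin n → ℝ) : ℝ := ∑ k, ∑ l, hinv u y k l * tau u k l y

/-- The squared norm of `Du`. -/
def qZ (u : (Fin n → ℝ) → ℝ) (y : Fin n → ℝ) : ℝ :=
  ∑ k, ∑ l, hinv u y k l * (pd k u y * pd l u y)

/-- The sum of the pure second derivatives. -/
def lap (f : (Fin n → ℝ) → ℝ) (y : Fin n → ℝ) : ℝ := ∑ m, pd m (pd m f) y

namespace MA

variable (h : MA Ω u)
include h

lemma det_ne : ∀ y ∈ Ω, (hess u y).det ≠ 0 := fun y hy => by rw [h.det_eq y hy]; norm_num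

lemma msm_hinv : MSm Ω (hinv u) := msm_inv (msm_hess h.isOpen h.sm) h.det_ne

lemma msm_mh (k : Fin n) : MSm Ω (mh u k) := (msm_hess h.isOpen h.sm).mpd h.isOpen k

lemma msm_rk (k : Fin n) : MSm Ω (rk u k) := h.msm_hinv.mul (h.msm_mh k)

lemma sm_tau (k l : Fin n) : Sm Ω (tau u k l) := ((h.msm_rk k).mul (h.msm_rk l)).trace

lemma sm_qP : Sm Ω (qP u) :=
  sm_sum _ fun k _ => sm_sum _ fun l _ => (h.msm_hinv k l).mul (h.sm_tau k l)

lemma sm_qZ : Sm Ω (qZ u) :=
  sm_sum _ fun k _ => sm_sum _ fun l _ =>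
    (h.msm_hinv k l).mul ((h.sm.pd h.isOpen k).mul (h.sm.pd h.isOpen l))

lemma mpd_hinv {y : Fin n → ℝ} (hy : y ∈ Ω) (m : Fin n) :
    mpd m (hinv u) y = -(hinv u y * mh u m y * hinv u y) :=
  mpd_inv h.isOpen (msm_hess h.isOpen h.sm) h.det_ne hy m

lemma trace_rk {y : Fin n → ℝ} (hy : y ∈ Ω) (k : Fin n) : (rk u k y).trace = 0 := by
  have h1 := pd_det h.isOpen (msm_hess h.isOpen h.sm) (h.det_ne y hy) hy k
  rw [pd_congr_on h.isOpen hy (g := fun _ => (1 : ℝ)) (fun z hz => h.det_eq z hz) k, pd_const,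
    h.det_eq y hy, one_mul] at h1
  exact h1.symm

lemma mpd_rk {y : Fin n → ℝ} (hy : y ∈ Ω) (m k : Fin n) :
    mpd m (rk u k) y = -(hinv u y * mh u m y * hinv u y) * mh u k y +
      hinv u y * mpd m (mh u k) y := by
  show mpd m (fun z => hinv u z * mh u k z) y = _
  rw [mpd_mul h.isOpen h.msm_hinv (h.msm_mh k) hy m, h.mpd_hinv hy]

/-! ### At a point with `D²u = 1` -/

variable (hx : x ∈ Ω) (hI : hess u x = 1)
include hx hI

omit h hx in
lemma hinv_one : hinv u x = 1 := by rw [hinv, hI, inv_one]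

lemma sym3 : Sym3 fun k => mh u k x where
  s12 a b c := pdl_perm h.isOpen h.sm (List.Perm.swap b a [c]) x hx
  s23 a b c := pdl_perm h.isOpen h.sm ((List.Perm.swap c b []).cons a) x hx

lemma sym4 : Sym4 fun a b => mpd a (mh u b) x where
  s12 a b c d := pdl_perm h.isOpen h.sm (List.Perm.swap b a [c, d]) x hx
  s23 a b c d := pdl_perm h.isOpen h.sm ((List.Perm.swap c b [d]).cons a) x hx
  s34 a b c d := pdl_perm h.isOpen h.sm (((List.Perm.swap d c []).cons b).cons a) x hx

lemma trace_mh (k : Fin n) : (mh u k x).trace = 0 := by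
  have := h.trace_rk hx k
  rwa [rk, hinv_one hI, one_mul] at this

lemma trace_mpd_mh (j i : Fin n) :
    (mpd j (mh u i) x).trace = (mh u j x * mh u i x).trace := by
  have h1 := pd_trace h.isOpen (h.msm_rk i) hx j
  rw [pd_congr_on h.isOpen hx (g := fun _ => (0 : ℝ)) (fun z hz => h.trace_rk hz i) j, pd_const,
    h.mpd_rk hx, hinv_one hI] at h1
  simp only [one_mul, mul_one, neg_mul, trace_add, trace_neg] at h1
  linarith

lemma sum_mpd_mh :
    ∑ m, mpd m (mh u m) x = ∑ m, mh u m x * mh u m x := by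
  ext a b
  rw [sum_sq_apply (h.sym3 hx hI) a b, ← h.trace_mpd_mh hx hI a b, Matrix.sum_apply,
    Matrix.trace]
  refine sum_congr rfl fun m _ => ?_
  exact pdl_perm h.isOpen h.sm (l := [m, m, a, b]) (l' := [a, b, m, m])
    (List.perm_iff_count.2 fun c => by simp only [List.count_cons, List.count_nil]; omega) x hx

lemma trace_fifth (k a b : Fin n) :
    (∑ m, mpd m (mpd m (mh u k)) x) a b =
      (mpd k (mh u a) x * mh u b x).trace + (mh u a x * mpd k (mh u b) x).trace +
        (mh u k x * mpd a (mh u b) x).trace - (mh u k x * mh u a x * mh u b x).trace -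
        (mh u a x * mh u k x * mh u b x).trace := by
  have hs : (∑ m, mpd m (mpd m (mh u k)) x) a b = (mpd k (mpd a (mh u b)) x).trace := by
    rw [Matrix.sum_apply, Matrix.trace]
    refine sum_congr rfl fun m _ => ?_
    exact pdl_perm h.isOpen h.sm (l := [m, m, k, a, b]) (l' := [k, a, b, m, m])
      (List.perm_iff_count.2 fun c => by simp only [List.count_cons, List.count_nil]; omega) x hx
  rw [hs]
  have hB := (h.msm_mh b).mpd h.isOpen a
  have hG := h.msm_hinv
  have hzero : ∀ y ∈ Ω, (hinv u y * mpd a (mh u b) y -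
      hinv u y * mh u a y * (hinv u y * mh u b y)).trace = 0 := fun y hy => by
    have h1 := pd_trace h.isOpen (h.msm_rk b) hy a
    rw [pd_congr_on h.isOpen hy (g := fun _ => (0 : ℝ)) (fun z hz => h.trace_rk hz b) a, pd_const,
      h.mpd_rk hy, neg_mul, add_comm, ← sub_eq_add_neg] at h1
    rw [← mul_assoc]
    exact h1.symm
  have hL : MSm Ω fun y => hinv u y * mpd a (mh u b) y := hG.mul hB
  have hR1 : MSm Ω fun y => hinv u y * mh u a y := hG.mul (h.msm_mh a)
  have hR2 : MSm Ω fun y => hinv u y * mh u b y := hG.mul (h.msm_mh b)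
  have hR : MSm Ω fun y => hinv u y * mh u a y * (hinv u y * mh u b y) := hR1.mul hR2
  have h2 := pd_trace (M := fun y => hinv u y * mpd a (mh u b) y -
      hinv u y * mh u a y * (hinv u y * mh u b y)) h.isOpen
    (fun i j => (hL i j).sub (hR i j)) hx k
  rw [pd_congr_on h.isOpen hx (g := fun _ => (0 : ℝ)) hzero k, pd_const,
    mpd_sub h.isOpen hL hR hx, mpd_mul h.isOpen hG hB hx, mpd_mul h.isOpen hR1 hR2 hx,
    mpd_mul h.isOpen hG (h.msm_mh a) hx, mpd_mul h.isOpen hG (h.msm_mh b) hx, h.mpd_hinv hx,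
    hinv_one hI] at h2
  simp only [one_mul, mul_one, neg_mul, mul_neg, add_mul, mul_add, trace_add, trace_sub,
    trace_neg, mul_assoc] at h2 ⊢
  linarith

lemma mpd_rk_one (m k : Fin n) :
    mpd m (rk u k) x = mpd m (mh u k) x - mh u m x * mh u k x := by
  rw [h.mpd_rk hx, hinv_one hI]
  simp only [one_mul, mul_one, neg_mul]
  abel

lemma mpd_mpd_hinv (m : Fin n) :
    mpd m (mpd m (hinv u)) x = 2 • (mh u m x * mh u m x) - mpd m (mh u m) x := by
  have hneg : ∀ y ∈ Ω, mpd m (hinv u) y =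
      (fun z => 0 - hinv u z * mh u m z * hinv u z) y := fun y hy => by
    rw [h.mpd_hinv hy]; exact (zero_sub _).symm
  have h1 : MSm Ω fun z => hinv u z * mh u m z := h.msm_hinv.mul (h.msm_mh m)
  rw [mpd_congr_on h.isOpen hx hneg,
    mpd_sub h.isOpen (M := fun _ => 0) (fun _ _ => sm_const _) (h1.mul h.msm_hinv) hx, mpd_const,
    mpd_mul h.isOpen h1 h.msm_hinv hx, mpd_mul h.isOpen h.msm_hinv (h.msm_mh m) hx,
    h.mpd_hinv hx, hinv_one hI]
  simp only [one_mul, mul_one, neg_mul, mul_neg, add_mul, zero_sub, two_smul]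
  abel

lemma mpd_mpd_rk (m k : Fin n) :
    mpd m (mpd m (rk u k)) x =
      2 • (mh u m x * mh u m x * mh u k x) - mpd m (mh u m) x * mh u k x -
        2 • (mh u m x * mpd m (mh u k) x) + mpd m (mpd m (mh u k)) x := by
  have heq : ∀ y ∈ Ω, mpd m (rk u k) y = (fun z => hinv u z * mpd m (mh u k) z -
      hinv u z * mh u m z * (hinv u z * mh u k z)) y := fun y hy => by
    rw [h.mpd_rk hy, neg_mul, add_comm, ← sub_eq_add_neg, mul_assoc _ (hinv u y) (mh u k y)]
  have hG := h.msm_hinv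
  have hB := (h.msm_mh k).mpd h.isOpen m
  have h1 : MSm Ω fun z => hinv u z * mh u m z := hG.mul (h.msm_mh m)
  have h2 : MSm Ω fun z => hinv u z * mh u k z := hG.mul (h.msm_mh k)
  rw [mpd_congr_on h.isOpen hx heq, mpd_sub h.isOpen (hG.mul hB) (h1.mul h2) hx,
    mpd_mul h.isOpen hG hB hx, mpd_mul h.isOpen h1 h2 hx, mpd_mul h.isOpen hG (h.msm_mh m) hx,
    mpd_mul h.isOpen hG (h.msm_mh k) hx, h.mpd_hinv hx, hinv_one hI]
  simp only [one_mul, mul_one, neg_mul, mul_neg, add_mul, mul_add, two_smul, mul_assoc]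
  abel

end MA

/-- The second derivative of a product. -/
lemma pd_pd_mul (hΩ : IsOpen Ω) {f g : (Fin n → ℝ) → ℝ} (hf : Sm Ω f) (hg : Sm Ω g) (hx : x ∈ Ω)
    (m : Fin n) : pd m (pd m fun y => f y * g y) x =
      pd m (pd m f) x * g x + 2 * pd m f x * pd m g x + f x * pd m (pd m g) x := by
  rw [pd_congr_on hΩ hx (f := pd m fun y => f y * g y)
      (g := fun y => pd m f y * g y + f y * pd m g y)
      (fun y hy => pd_mul (hf.differentiableAt hΩ hy) (hg.differentiableAt hΩ hy) m) m,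
    pd_add (((hf.pd hΩ m).mul hg).differentiableAt hΩ hx)
      ((hf.mul (hg.pd hΩ m)).differentiableAt hΩ hx),
    pd_mul ((hf.pd hΩ m).differentiableAt hΩ hx) (hg.differentiableAt hΩ hx),
    pd_mul (hf.differentiableAt hΩ hx) ((hg.pd hΩ m).differentiableAt hΩ hx)]
  ring

lemma pd_pd_sum₂ (hΩ : IsOpen Ω) {f : Fin n → Fin n → (Fin n → ℝ) → ℝ}
    (hf : ∀ k l, Sm Ω (f k l)) (hx : x ∈ Ω) (m : Fin n) :
    pd m (pd m fun y => ∑ k, ∑ l, f k l y) x = ∑ k, ∑ l, pd m (pd m (f k l)) x := by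
  rw [pd_congr_on hΩ hx (f := pd m fun y => ∑ k, ∑ l, f k l y)
      (g := fun y => ∑ k, ∑ l, pd m (f k l) y) (fun y hy => by
        rw [pd_sum (fun k _ => (sm_sum univ fun l _ => hf k l).differentiableAt hΩ hy)]
        exact sum_congr rfl fun k _ => pd_sum (fun l _ => (hf k l).differentiableAt hΩ hy) m) m,
    pd_sum (fun k _ => (sm_sum univ fun l _ => (hf k l).pd hΩ m).differentiableAt hΩ hx)]
  exact sum_congr rfl fun k _ => pd_sum (fun l _ => ((hf k l).pd hΩ m).differentiableAt hΩ hx) m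

namespace MA

variable (h : MA Ω u) (hx : x ∈ Ω) (hI : hess u x = 1)
include h hx hI

lemma qP_one : qP u x = ∑ k, (mh u k x * mh u k x).trace := by
  simp only [qP, tau, rk, hinv_one hI, one_mul, Matrix.one_apply, ite_mul, zero_mul]
  simp

lemma qP_nonneg_one : 0 ≤ qP u x := by
  rw [h.qP_one hx hI]
  exact sum_nonneg fun k _ => trace_sq_nonneg ((h.sym3 hx hI).transpose k)

lemma mh_eq_zero (h0 : qP u x = 0) (k : Fin n) : mh u k x = 0 := by
  rw [h.qP_one hx hI] at h0
  have h1 := (sum_eq_zero_iff_of_nonneg fun j _ =>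
    trace_sq_nonneg ((h.sym3 hx hI).transpose j)).1 h0 k (mem_univ k)
  rw [trace_mul_eq_sum] at h1
  ext a b
  have h2 := (sum_eq_zero_iff_of_nonneg fun i _ => sum_nonneg fun j _ => by
    rw [(h.sym3 hx hI).s23 k j i]; exact mul_self_nonneg _).1 h1 a (mem_univ a)
  have h3 := (sum_eq_zero_iff_of_nonneg fun j _ => by
    rw [(h.sym3 hx hI).s23 k j a]; exact mul_self_nonneg _).1 h2 b (mem_univ b)
  rw [(h.sym3 hx hI).s23 k b a] at h3
  exact mul_self_eq_zero.1 h3

/-- Calabi's inequality. -/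
theorem calabi : qP u x ^ 2 ≤ (2 * n : ℝ) * lap (qP u) x := by
  set M : Fin n → Matrix (Fin n) (Fin n) ℝ := fun k => mh u k x
  set B : Fin n → Fin n → Matrix (Fin n) (Fin n) ℝ := fun a b => mpd a (mh u b) x
  set X : Fin n → Fin n → Matrix (Fin n) (Fin n) ℝ := fun m k => mpd m (mpd m (mh u k)) x
  have hterm : ∀ m k l, pd m (pd m fun y => hinv u y k l * tau u k l y) x =
      (2 • (M m * M m) - B m m) k l * (M k * M l).trace +
        2 * -(M m k l) * (((B m k - M m * M k) * M l).trace + (M k * (B m l - M m * M l)).trace) +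
        (if k = l then (2 * ((2 • (M m * M m * M k) - B m m * M k - 2 • (M m * B m k) + X m k)
            * M k).trace + 2 * ((B m k - M m * M k) * (B m k - M m * M k)).trace) else 0) := by
    intro m k l
    rw [pd_pd_mul h.isOpen (h.msm_hinv k l) (h.sm_tau k l) hx]
    have e1 : pd m (pd m fun y => hinv u y k l) x = mpd m (mpd m (hinv u)) x k l := rfl
    have e2 : pd m (fun y => hinv u y k l) x = mpd m (hinv u) x k l := rfl
    have e3 : pd m (tau u k l) x =
        ((mpd m (rk u k) x) * rk u l x + rk u k x * mpd m (rk u l) x).trace := by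
      show pd m (fun y => (rk u k y * rk u l y).trace) x = _
      rw [pd_trace h.isOpen ((h.msm_rk k).mul (h.msm_rk l)) hx,
        mpd_mul h.isOpen (h.msm_rk k) (h.msm_rk l) hx]
    have e4 : pd m (pd m (tau u k k)) x =
        2 * (mpd m (mpd m (rk u k)) x * rk u k x).trace +
          2 * (mpd m (rk u k) x * mpd m (rk u k) x).trace := by
      rw [pd_congr_on h.isOpen hx (f := pd m (tau u k k))
        (g := fun y => ((fun z => mpd m (rk u k) z * rk u k z) y).trace +
          ((fun z => rk u k z * mpd m (rk u k) z) y).trace) (fun y hy => by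
        show pd m (fun y => (rk u k y * rk u k y).trace) y = _
        rw [pd_trace h.isOpen ((h.msm_rk k).mul (h.msm_rk k)) hy,
          mpd_mul h.isOpen (h.msm_rk k) (h.msm_rk k) hy, trace_add]) m]
      have s1 : MSm Ω fun z => mpd m (rk u k) z * rk u k z :=
        ((h.msm_rk k).mpd h.isOpen m).mul (h.msm_rk k)
      have s2 : MSm Ω fun z => rk u k z * mpd m (rk u k) z :=
        (h.msm_rk k).mul ((h.msm_rk k).mpd h.isOpen m)
      rw [pd_add (s1.trace.differentiableAt h.isOpen hx) (s2.trace.differentiableAt h.isOpen hx),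
        pd_trace h.isOpen s1 hx, pd_trace h.isOpen s2 hx,
        mpd_mul h.isOpen ((h.msm_rk k).mpd h.isOpen m) (h.msm_rk k) hx,
        mpd_mul h.isOpen (h.msm_rk k) ((h.msm_rk k).mpd h.isOpen m) hx, trace_add, trace_add,
        trace_mul_comm (rk u k x)]
      ring
    have hG : hinv u x = 1 := hinv_one hI
    have hR : ∀ j, rk u j x = M j := fun j => by rw [rk, hG, one_mul]
    rw [e1, e2, e3, h.mpd_mpd_hinv hx hI, h.mpd_hinv hx, hG]
    simp only [one_mul, mul_one, tau, hR, h.mpd_rk_one hx hI, trace_add, Matrix.neg_apply,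
      Matrix.one_apply]
    by_cases hkl : k = l
    · subst hkl
      rw [e4, h.mpd_mpd_rk hx hI, h.mpd_rk_one hx hI, hR]
      simp only [if_true, one_mul, M, B, X]
    · simp only [if_neg hkl, zero_mul, M, B]
  have hlap : lap (qP u) x =
      ∑ k, ∑ l, (M k * M l).trace ^ 2 +
       ∑ m, ∑ k, ∑ l, 2 * -(M m k l) *
          (((B m k - M m * M k) * M l).trace + (M k * (B m l - M m * M l)).trace) +
       ∑ m, ∑ k, (2 * ((2 • (M m * M m * M k) - B m m * M k - 2 • (M m * B m k) + X m k)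
            * M k).trace + 2 * ((B m k - M m * M k) * (B m k - M m * M k)).trace) := by
    have : ∀ m, pd m (pd m (qP u)) x =
        ∑ k, ∑ l, pd m (pd m fun y => hinv u y k l * tau u k l y) x := fun m =>
      pd_pd_sum₂ h.isOpen (fun k l => (h.msm_hinv k l).mul (h.sm_tau k l)) hx m
    simp only [lap, this, hterm, sum_add_distrib, sum_ite_eq, mem_univ, if_true]
    congr 2
    rw [sum_comm]
    refine sum_congr rfl fun k _ => ?_
    rw [sum_comm]
    refine sum_congr rfl fun l _ => ?_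
    rw [← sum_mul, sq]
    congr 1
    rw [← Matrix.sum_apply, sum_sub_distrib, ← smul_sum, h.sum_mpd_mh hx hI, two_smul,
      add_sub_cancel_right]
    exact sum_sq_apply (h.sym3 hx hI) k l
  rw [hlap, h.qP_one hx hI]
  exact tensor_bound (h.sym3 hx hI) (h.sym4 hx hI) X (h.sum_mpd_mh hx hI)
    (h.trace_fifth hx hI)

/-- `∑ u_a M_a`. -/
lemma qZ_data : qZ u x = ∑ k, pd k u x ^ 2 ∧
    (∀ m, pd m (qZ u) x = 2 * pd m u x - ((∑ a, pd a u x • mh u a x) *ᵥ fun a => pd a u x) m) ∧
    lap (qZ u) x =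
      2 * n + ((∑ a, pd a u x • mh u a x) * (∑ a, pd a u x • mh u a x)).trace := by
  set v : Fin n → ℝ := fun a => pd a u x
  have hv : ∀ a, pd a u x = v a := fun _ => rfl
  have hG : hinv u x = 1 := hinv_one hI
  have hd : ∀ m k, pd m (pd k u) x = if m = k then 1 else 0 := fun m k => by
    show hess u x m k = _
    rw [hI, Matrix.one_apply]
  have hdd : ∀ m k, pd m (pd m (pd k u)) x = mh u m x m k := fun _ _ => rfl
  have hdG : ∀ m k l, pd m (fun y => hinv u y k l) x = -(mh u m x k l) := fun m k l => by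
    show mpd m (hinv u) x k l = _
    simp [h.mpd_hinv hx, hG]
  have hsym := h.sym3 hx hI
  have hsf : ∀ k l, Sm Ω fun y => pd k u y * pd l u y := fun k l =>
    (h.sm.pd h.isOpen k).mul (h.sm.pd h.isOpen l)
  have hdg : ∀ m k l, pd m (fun y => pd k u y * pd l u y) x =
      (if m = k then 1 else 0) * v l + v k * (if m = l then 1 else 0) := fun m k l => by
    rw [pd_mul ((h.sm.pd h.isOpen k).differentiableAt h.isOpen hx)
      ((h.sm.pd h.isOpen l).differentiableAt h.isOpen hx), hd, hd, hv, hv]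
  refine ⟨?_, fun m => ?_, ?_⟩
  · simp [qZ, hG, Matrix.one_apply, sq]
  · show pd m (fun y => ∑ k, ∑ l, hinv u y k l * (pd k u y * pd l u y)) x = _
    rw [pd_sum (fun k _ => (sm_sum univ fun l _ =>
      (h.msm_hinv k l).mul (hsf k l)).differentiableAt h.isOpen hx)]
    have : ∀ k, pd m (fun y => ∑ l, hinv u y k l * (pd k u y * pd l u y)) x =
        ∑ l, (-(mh u m x k l) * (v k * v l) + (if k = l then 1 else 0) *
          ((if m = k then 1 else 0) * v l + v k * (if m = l then 1 else 0))) := fun k => by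
      rw [pd_sum (fun l _ => ((h.msm_hinv k l).mul (hsf k l)).differentiableAt h.isOpen hx)]
      exact sum_congr rfl fun l _ => by
        rw [pd_mul ((h.msm_hinv k l).differentiableAt h.isOpen hx)
          ((hsf k l).differentiableAt h.isOpen hx), hdG, hdg, hG, Matrix.one_apply, hv, hv]
    simp only [this, sum_add_distrib, ite_mul, one_mul, zero_mul, sum_ite_eq, mem_univ, if_true,
      mul_ite, mul_one, mul_zero, hv]
    simp only [Matrix.mulVec, dotProduct, Matrix.sum_apply, Matrix.smul_apply, smul_eq_mul,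
      sum_mul, neg_mul, sum_neg_distrib]
    have e : ∑ k, ∑ l, mh u m x k l * (v k * v l) = ∑ l, ∑ a, v a * mh u a x m l * v l := by
      rw [sum_comm]
      exact sum_congr rfl fun l _ => sum_congr rfl fun a _ => by rw [hsym.s12 m a l]; ring
    rw [e]
    ring
  · have hterm : ∀ m k l,
        pd m (pd m fun y => hinv u y k l * (pd k u y * pd l u y)) x =
          (2 • (mh u m x * mh u m x) - mpd m (mh u m) x) k l * (v k * v l) +
          2 * -(mh u m x k l) * ((if m = k then 1 else 0) * v l + v k * (if m = l then 1 else 0)) +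
          (if k = l then (mh u m x m k * v l + 2 * (if m = k then 1 else 0) *
            (if m = l then 1 else 0) + v k * mh u m x m l) else 0) := by
      intro m k l
      rw [pd_pd_mul h.isOpen (h.msm_hinv k l) (hsf k l) hx,
        pd_pd_mul h.isOpen (h.sm.pd h.isOpen k) (h.sm.pd h.isOpen l) hx, hdG, hdg,
        show pd m (pd m fun y => hinv u y k l) x = mpd m (mpd m (hinv u)) x k l from rfl,
        h.mpd_mpd_hinv hx hI, hG, Matrix.one_apply, hdd, hdd, hd, hd, hv, hv]
      simp only [ite_mul, one_mul, zero_mul]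
    have : ∀ m, pd m (pd m (qZ u)) x =
        ∑ k, ∑ l, pd m (pd m fun y => hinv u y k l * (pd k u y * pd l u y)) x := fun m =>
      pd_pd_sum₂ h.isOpen (fun k l => (h.msm_hinv k l).mul (hsf k l)) hx m
    have htr : ∀ l, ∑ m, mh u m x m l = 0 := fun l => by
      rw [← h.trace_mh hx hI l, Matrix.trace]
      exact sum_congr rfl fun m _ => by
        rw [Matrix.diag_apply, hsym.s23 m m l, hsym.s12 m l m]
    simp only [lap, this, hterm, sum_add_distrib, sum_ite_eq, mem_univ, if_true, hv]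
    have eA : ∑ m, ∑ k, ∑ l, (2 • (mh u m x * mh u m x) - mpd m (mh u m) x) k l * (v k * v l) =
        ((∑ a, v a • mh u a x) * ∑ a, v a • mh u a x).trace := by
      rw [sum_comm]
      simp only [Matrix.sum_mul, Matrix.mul_sum, trace_sum, Matrix.smul_mul, Matrix.mul_smul,
        trace_smul, smul_eq_mul, mul_sum]
      refine sum_congr rfl fun k _ => ?_
      rw [sum_comm]
      refine sum_congr rfl fun l _ => ?_
      rw [← sum_mul, ← Matrix.sum_apply, sum_sub_distrib, ← smul_sum, h.sum_mpd_mh hx hI,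
        two_smul, add_sub_cancel_right, sum_sq_apply hsym, trace_mul_comm (mh u k x)]
      ring
    have eB1 : ∀ m, ∑ k, ∑ l, 2 * -(mh u m x k l) *
        ((if m = k then 1 else 0) * v l + v k * (if m = l then 1 else 0)) =
        -4 * ∑ l, mh u m x m l * v l := fun m => by
      simp only [mul_add, sum_add_distrib, ite_mul, one_mul, zero_mul, mul_ite, mul_one, mul_zero,
        sum_ite_eq, mem_univ, if_true, sum_ite_irrel, sum_const_zero]
      rw [mul_sum, ← sum_add_distrib]
      exact sum_congr rfl fun l _ => by rw [hsym.s23 m l m]; ring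
    rw [eA]
    simp only [eB1, ← mul_sum]
    have h0 : ∑ m, ∑ l, mh u m x m l * v l = 0 := by
      rw [sum_comm]
      simp [← sum_mul, htr]
    have h0' : ∑ m, ∑ l, v l * mh u m x m l = 0 := by simp_rw [mul_comm (v _)]; exact h0
    rw [h0, h0']
    simp
    ring

end MA

end

end Vale.Agent.P252
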